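import Vale.Agent.P101.Prime

/-! Shared notions for P133: representations, supports, ideals, levels. -/

namespace Vale.Agent.P133
open Vale.Agent.P101
open scoped CStarAlgebra
universe u

/-- A unital star homomorphism from `G` into some ordered C*-algebra. -/
structure Rep (G : Type u) [CStarAlgebra G] where
  /-- the target -/
  Q : Type u
  [alg : CStarAlgebra Q]
  [po : PartialOrder Q]
  [sor : StarOrderedRing Q]
  /-- the homomorphism -/
  π : G →⋆ₐ[ℂ] Q

attribute [instance] Rep.alg Rep.po Rep.sor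

section
variable {G : Type u} [CStarAlgebra G]

/-- `w` is supported under `y`: left annihilators of `y` kill `w`. -/
def Sub (y w : G) : Prop := ∀ e : G, e * y = 0 → e * w = 0

/-- `z` lies in the closed two-sided ideal generated by `y`. -/
def In (y z : G) : Prop := ∀ R : Rep G, R.π y = 0 → R.π z = 0

/-- `T` compressed to `x` is bounded below by `θ` in the representation `R`. -/
def Bad (R : Rep G) (x T : G) (θ : ℝ) : Prop := θ • R.π (x * x) ≤ R.π (x * T * x)

/-- `y * y` is properly infinite. -/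
def PI (y : G) : Prop := ∀ δ > 0, ∃ s t : G, ‖star s * (y * y) * s - y * y‖ < δ ∧
  ‖star t * (y * y) * t - y * y‖ < δ ∧ ‖star s * (y * y) * t‖ < δ

/-- The representation on the quotient by a closed two-sided ideal. -/
noncomputable def Rep.quo (I : Ideal G) [StarIdeal I] [IsClosed (I : Set G)] : Rep G :=
  letI := CStarAlgebra.spectralOrder (Quo I)
  haveI := CStarAlgebra.spectralOrderedRing (Quo I)
  ⟨Quo I, Quo.mk I⟩

/-- Composition of representations. -/
def Rep.comp (R : Rep G) (S : Rep R.Q) : Rep G := ⟨S.Q, S.π.comp R.π⟩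

/-- The closed two-sided ideal generated by `y`. -/
def cid (y : G) : Ideal G := mkIdeal {z | In y z} (fun R _ => map_zero R.π)
  (fun a ha b hb R h => by rw [map_add, ha R h, hb R h, add_zero])
  (fun c a ha R h => by rw [map_mul, ha R h, mul_zero])

lemma mem_cid {y z : G} : z ∈ cid y ↔ In y z := Iff.rfl

instance cid_twoSided (y : G) : (cid y).IsTwoSided :=
  ⟨fun {a} b ha R h => by rw [map_mul, ha R h, zero_mul]⟩

instance cid_closed (y : G) : IsClosed (cid y : Set G) := by
  change IsClosed {z : G | ∀ R : Rep G, R.π y = 0 → R.π z = 0}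
  simp only [Set.ofPred_forall]
  exact isClosed_iInter fun R => isClosed_iInter fun _ =>
    isClosed_eq (map_continuous R.π) continuous_const

instance cid_star (y : G) : StarIdeal (cid y) := starIdeal_of_isClosed _ (cid_closed y)

lemma In.refl (y : G) : In y y := fun _ h => h

lemma In.trans {x y z : G} (h : In x y) (h' : In y z) : In x z := fun R h0 => h' R (h R h0)

lemma In.mul_left {y z : G} (h : In y z) (a : G) : In y (a * z) := fun R h0 => by
  rw [map_mul, h R h0, mul_zero]

lemma In.mul_right {y z : G} (h : In y z) (a : G) : In y (z * a) := fun R h0 => by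
  rw [map_mul, h R h0, zero_mul]

lemma In.star {y z : G} (h : In y z) : In y (star z) := fun R h0 => by
  rw [map_star, h R h0, star_zero]

/-- Induction principle: a closed two-sided ideal containing `y` contains the ideal of `y`. -/
lemma In.mem {y z : G} (h : In y z) (I : Ideal G) [I.IsTwoSided] (hI : IsClosed (I : Set G))
    (hy : y ∈ I) : z ∈ I := by
  have := starIdeal_of_isClosed I hI
  exact (Quo.mk_eq_zero I).1 (h (Rep.quo I) ((Quo.mk_eq_zero I).2 hy))

lemma Sub.refl (y : G) : Sub y y := fun _ h => h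

lemma Sub.trans {x y z : G} (h : Sub x y) (h' : Sub y z) : Sub x z := fun e h0 => h' e (h e h0)

lemma Sub.mul_right {y w : G} (h : Sub y w) (a : G) : Sub y (w * a) := fun e h0 => by
  rw [← mul_assoc, h e h0, zero_mul]

lemma Sub.add {y w w' : G} (h : Sub y w) (h' : Sub y w') : Sub y (w + w') := fun e h0 => by
  rw [mul_add, h e h0, h' e h0, add_zero]

lemma Sub.smul {y w : G} (h : Sub y w) (t : ℝ) : Sub y (t • w) := fun e h0 => by
  rw [mul_smul_comm, h e h0, smul_zero]

lemma Sub.unit {y w e : G} (h : Sub y w) (he : e * y = y) : e * w = w := by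
  have := h (1 - e) (by rw [sub_mul, one_mul, he, sub_self])
  rw [sub_mul, one_mul, sub_eq_zero] at this
  exact this.symm

lemma Sub.of_unit {y w : G} (h : y * w = w) : Sub y w := h ▸ (Sub.refl y).mul_right w

lemma one_le_norm_of_unit {Q : Type*} [NormedRing Q] {e a : Q} (h : e * a = a) (ha : a ≠ 0) :
    1 ≤ ‖e‖ := by
  have h1 := norm_mul_le e a
  rw [h] at h1
  exact le_of_mul_le_mul_right (by rwa [one_mul]) (norm_pos_iff.2 ha)

lemma Rep.eq_zero_of_unit (R : Rep G) {e a : G} (h : e * a = a) (he : ‖R.π e‖ < 1) :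
    R.π a = 0 := by
  by_contra h0
  exact absurd (one_le_norm_of_unit (by rw [← map_mul, h]) h0) (not_le.2 he)

lemma Rep.norm_le (R : Rep G) (a : G) : ‖R.π a‖ ≤ ‖a‖ := NonUnitalStarAlgHom.norm_apply_le R.π a

lemma PI.map {y : G} (h : PI y) (R : Rep G) : PI (R.π y) := fun δ hδ => by
  obtain ⟨s, t, h1, h2, h3⟩ := h δ hδ
  refine ⟨R.π s, R.π t, ?_, ?_, ?_⟩
  · simpa only [map_sub, map_mul, map_star] using (R.norm_le _).trans_lt h1
  · simpa only [map_sub, map_mul, map_star] using (R.norm_le _).trans_lt h2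
  · simpa only [map_mul, map_star] using (R.norm_le _).trans_lt h3

/-- A representation killing a closed ideal factors through the quotient. -/
lemma Rep.exists_factor (R : Rep G) (I : Ideal G) [StarIdeal I] [IsClosed (I : Set G)]
    (h : ∀ j ∈ I, R.π j = 0) : ∃ S : Rep (Rep.quo I).Q, (Rep.quo I).comp S = R := by
  obtain ⟨Q, π⟩ := R
  let φ : Quo I →ₐ[ℂ] Q := Ideal.Quotient.liftₐ I (π : G →ₐ[ℂ] Q) h
  have hφ : ∀ a, φ (Quo.mk I a) = π a := fun _ => rfl
  let ψ : Quo I →⋆ₐ[ℂ] Q := ⟨φ, fun x => by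
    obtain ⟨a, rfl⟩ := Quo.mk_surj I x
    change φ (star (Quo.mk I a)) = star (φ (Quo.mk I a))
    rw [← map_star, hφ, hφ, map_star]⟩
  exact ⟨⟨Q, ψ⟩, rfl⟩

lemma Rep.quo_surj (I : Ideal G) [StarIdeal I] [IsClosed (I : Set G)] (x : (Rep.quo I).Q) :
    ∃ a, (Rep.quo I).π a = x := Quo.mk_surj I x

lemma Rep.quo_eq_zero (I : Ideal G) [StarIdeal I] [IsClosed (I : Set G)] {a : G} :
    (Rep.quo I).π a = 0 ↔ a ∈ I := Quo.mk_eq_zero I

lemma Rep.comp_apply (R : Rep G) (S : Rep R.Q) (a : G) : (R.comp S).π a = S.π (R.π a) := rfl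

lemma Bad.comp {R : Rep G} {S : Rep R.Q} {x T : G} {θ : ℝ} :
    Bad (R.comp S) x T θ ↔ Bad S (R.π x) (R.π T) θ := by
  simp only [Bad, Rep.comp_apply, map_mul]
  rfl

/-- Local units in the ideal generated by `y`. -/
lemma In.exists_unit {y x : G} (h : In y x) {δ : ℝ} (hδ : 0 < δ) :
    ∃ e, In y e ∧ IsSelfAdjoint e ∧ ‖1 - e‖ ≤ 1 ∧ ‖(1 - e) * x‖ ≤ δ := by
  obtain ⟨e, he, hs, h1, h2⟩ := exists_local_unit (cid y) (mem_cid.2 h.star) hδ
  refine ⟨e, he, hs, h1, ?_⟩
  rwa [← norm_star, star_mul, star_star, star_sub, star_one, hs.star_eq] at h2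

variable [PartialOrder G] [StarOrderedRing G]

lemma Rep.mono (R : Rep G) {a b : G} (h : a ≤ b) : R.π a ≤ R.π b := by
  rw [← sub_nonneg, ← map_sub]
  exact pos_iff.1 ((pos_iff.2 (sub_nonneg.2 h)).map R.π)

lemma Rep.nonneg (R : Rep G) {a : G} (h : 0 ≤ a) : 0 ≤ R.π a := by
  simpa only [map_zero] using R.mono h

/-- A chain of levels `l 0 ≫ l 1 ≫ …` of `x`. -/
structure Chain (x : G) (ε : ℝ) (l : ℕ → G) : Prop where
  nonneg : ∀ n, 0 ≤ l n
  norm_le : ∀ n, ‖l n‖ ≤ 1
  mul : ∀ n, l n * l (n + 1) = l (n + 1)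
  fac : ∀ n, ∃ g, l n = x * g
  comm : ∀ n, Commute x (l n)
  close : ∀ n, ‖x - x * l n‖ < ε

/-- Output of a contraction step on one side. -/
structure Lev (M : Ideal G) (x X X' : G) : Prop where
  mem : X' ∈ M
  nonneg : 0 ≤ X'
  sa : IsSelfAdjoint X
  unit : X * X' = X'
  sub : Sub x X
  full : ∀ R : Rep G, ‖R.π X'‖ < 1 → ‖R.π x‖ < 1

end

end Vale.Agent.P133
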