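import Vale.Agent.P133.Iter
import Vale.Agent.P133.Defs

/-! Passage to the unitization. -/

namespace Vale.Agent.P133
open Vale.Agent.P101
open scoped CStarAlgebra
universe u

theorem PurelyInfinite.exists_pair {C : Type u} [NonUnitalCStarAlgebra C] [PartialOrder C]
    [StarOrderedRing C] (h : PurelyInfinite C) {z : C} (hz : 0 ≤ z) {δ : ℝ} (hδ : 0 < δ) :
    ∃ s t : C, ‖star s * z * s - z‖ < δ ∧ ‖star t * z * t - z‖ < δ ∧ ‖star s * z * t‖ < δ := by
  obtain ⟨N, hN, -, x, hx⟩ := h z hz δ hδ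
  obtain ⟨N, rfl⟩ := Nat.exists_eq_add_of_le' hN
  have key : ∀ i j, (star x * amp (N + 2) 1 z * x - amp (N + 2) 2 z) i j =
      star (x 0 i) * z * x 0 j - amp (N + 2) 2 z i j := by
    intro i j
    have h1 : ∀ k, (star x * amp (N + 2) 1 z) i k = if k = 0 then star (x 0 i) * z else 0 := by
      intro k
      rw [CStarMatrix.mul_apply, Finset.sum_eq_single k]
      · by_cases hk : k = 0
        · subst hk
          simp [amp, CStarMatrix.star_eq_conjTranspose]
        · have : ¬ k.val < 1 := fun h => hk (Fin.ext (by simpa using h))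
          simp [amp, hk, this]
      · intro b _ hb
        simp [amp, Matrix.diagonal_apply_ne _ hb]
      · simp
    rw [CStarMatrix.sub_apply, CStarMatrix.mul_apply]
    simp only [h1, ite_mul, zero_mul, Finset.sum_ite_eq', Finset.mem_univ, if_true]
  have hb : ∀ i j, ‖star (x 0 i) * z * x 0 j - amp (N + 2) 2 z i j‖ < δ := fun i j =>
    key i j ▸ CStarMatrix.norm_entry_le_norm.trans_lt hx
  refine ⟨x 0 0, x 0 1, ?_, ?_, ?_⟩
  · simpa [amp] using hb 0 0
  · simpa [amp] using hb 1 1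
  · simpa [amp] using hb 0 1

theorem spi_of_pi (C : Type u) [NonUnitalCStarAlgebra C] [PartialOrder C]
    [StarOrderedRing C] (h : PurelyInfinite C) : StronglyPurelyInfinite C := by
  intro x y hx hy ε hε
  let M : Ideal C⁺¹ := RingHom.ker (Unitization.fstHom ℂ C : C⁺¹ →+* ℂ)
  have hmem : ∀ a : C, (a : C⁺¹) ∈ M := fun a => by
    change (a : C⁺¹).fst = 0
    simp
  have hex : ∀ z ∈ M, ∃ a : C, (a : C⁺¹) = z := fun z hz => ⟨z.snd, by
    have h0 : z.fst = 0 := hz
    conv_rhs => rw [← Unitization.inl_fst_add_inr_snd_eq z, h0, Unitization.inl_zero, zero_add]⟩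
  have hM : ∀ z ∈ M, 0 ≤ z → PI z := by
    intro z hz h0 δ hδ
    obtain ⟨a, rfl⟩ := hex z hz
    have ha : IsSelfAdjoint a := (Unitization.inr_nonneg_iff.1 h0).isSelfAdjoint
    obtain ⟨s, t, h1, h2, h3⟩ := h.exists_pair
      (z := a * a) (by simpa only [ha.star_eq] using star_mul_self_nonneg a) hδ
    refine ⟨s, t, ?_, ?_, ?_⟩
    · rw [← Unitization.norm_inr (𝕜 := ℂ)] at h1
      simpa using h1
    · rw [← Unitization.norm_inr (𝕜 := ℂ)] at h2
      simpa using h2
    · rw [← Unitization.norm_inr (𝕜 := ℂ)] at h3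
      simpa using h3
  obtain ⟨s, hs, t, ht, h1, h2, h3⟩ := spi_ideal hM (Unitization.inr_nonneg_iff.2 hx) (hmem x)
    (Unitization.inr_nonneg_iff.2 hy) (hmem y) hε
  obtain ⟨s, rfl⟩ := hex s hs
  obtain ⟨t, rfl⟩ := hex t ht
  refine ⟨s, t, ?_, ?_, ?_⟩
  · rw [← Unitization.norm_inr (𝕜 := ℂ)]
    simpa using h1
  · rw [← Unitization.norm_inr (𝕜 := ℂ)]
    simpa using h2
  · rw [← Unitization.norm_inr (𝕜 := ℂ)]
    simpa using h3

end Vale.Agent.P133
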