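import Vale.Agent.P133.Basic

/-! Functional calculus gadgets. -/

namespace Vale.Agent.P133
open Vale.Agent.P101
open scoped CStarAlgebra
universe u
variable {G : Type u} [CStarAlgebra G] [PartialOrder G] [StarOrderedRing G]

/-- A ramp from `0` at `a` to `1` at `b`. -/
noncomputable def ramp (a b t : ℝ) : ℝ := min 1 (max 0 ((t - a) / (b - a)))

lemma ramp_cont (a b : ℝ) : Continuous (ramp a b) := by unfold ramp; fun_prop

lemma ramp_nonneg (a b t : ℝ) : 0 ≤ ramp a b t := le_min zero_le_one (le_max_left _ _)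

lemma ramp_le (a b t : ℝ) : ramp a b t ≤ 1 := min_le_left _ _

lemma ramp_zero {a b t : ℝ} (h : a < b) (ht : t ≤ a) : ramp a b t = 0 := by
  rw [ramp, max_eq_left (div_nonpos_of_nonpos_of_nonneg (by linarith) (by linarith)),
    min_eq_right zero_le_one]

lemma ramp_one {a b t : ℝ} (h : a < b) (ht : b ≤ t) : ramp a b t = 1 :=
  min_eq_left (le_max_of_le_right ((one_le_div (by linarith)).2 (by linarith)))

omit [PartialOrder G] [StarOrderedRing G] in
lemma sub_cfc {h : G} (hh : IsSelfAdjoint h) {f : ℝ → ℝ} (hf : Continuous f) (f0 : f 0 = 0) :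
    Sub h (cfc f h) := fun e he => by
  have h1 : h * star e = (0 : ℝ) • star e := by
    simpa only [star_mul, hh.star_eq, star_zero, zero_smul] using congrArg star he
  have h2 := cfc_mul_of_eigen hh h1 hf
  have h3 : IsSelfAdjoint (cfc f h) := cfc_predicate _ _
  rw [f0, zero_smul] at h2
  simpa only [star_mul, star_star, h3.star_eq, star_zero] using congrArg star h2

theorem exists_chain {x : G} (hx : 0 ≤ x) {ε : ℝ} (hε : 0 < ε) : ∃ l, Chain x ε l := by
  have hs := hx.isSelfAdjoint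
  obtain ⟨a, a0, a1, a2⟩ : ∃ a : ℕ → ℝ, 0 < a 0 ∧ StrictMono a ∧ ∀ n, a n ≤ ε / 2 := by
    refine ⟨fun n => ε / 2 * (1 - 1 / ((n : ℝ) + 2)), by norm_num; linarith,
      strictMono_nat_of_lt_succ fun n => ?_, fun n => ?_⟩
    · refine mul_lt_mul_of_pos_left (sub_lt_sub_left ?_ _) (by linarith)
      push_cast
      exact one_div_lt_one_div_of_lt (by positivity) (by linarith)
    · exact mul_le_of_le_one_right (by linarith) (sub_le_self _ (by positivity))
  have lt : ∀ n, a n < a (n + 1) := fun n => a1 (Nat.lt_succ_self n)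
  have hc := fun n => ramp_cont (a n) (a (n + 1))
  refine ⟨fun n => cfc (ramp (a n) (a (n + 1))) x, fun n => cfc_nonneg fun t _ => ramp_nonneg _ _ _,
    fun n => norm_cfc_le zero_le_one fun t _ => ?_, fun n => ?_, fun n => ?_,
    fun n => ((Commute.refl x).cfc_real _).symm, fun n => ?_⟩
  · rw [Real.norm_of_nonneg (ramp_nonneg _ _ _)]; exact ramp_le _ _ _
  · rw [← cfc_mul _ _ _ (hc n).continuousOn (hc (n + 1)).continuousOn]
    refine cfc_congr fun t _ => ?_
    rcases le_total t (a (n + 1)) with h | h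
    · simp only [ramp_zero (lt (n + 1)) h, mul_zero]
    · simp only [ramp_one (lt n) h, one_mul]
  · have hg : Continuous fun t => (max (a 0) t)⁻¹ * ramp (a n) (a (n + 1)) t :=
      (continuous_inv_max a0).mul (hc n)
    refine ⟨cfc (fun t => (max (a 0) t)⁻¹ * ramp (a n) (a (n + 1)) t) x, ?_⟩
    nth_rw 2 [← cfc_id' ℝ x]
    rw [← cfc_mul _ _ _ (by fun_prop) hg.continuousOn]
    refine cfc_congr fun t _ => ?_
    rcases le_total t (a 0) with h | h
    · simp only [ramp_zero (lt n) (h.trans (a1.monotone (Nat.zero_le n))), mul_zero]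
    · have : t ≠ 0 := (a0.trans_le h).ne'
      simp only [max_eq_right h]
      field_simp
  · have e : x - x * cfc (ramp (a n) (a (n + 1))) x =
        cfc (fun t => t - t * ramp (a n) (a (n + 1)) t) x := by
      have := hc n
      rw [cfc_sub .., cfc_mul .., cfc_id' ℝ x]
    rw [e]
    refine (norm_cfc_le (by linarith : (0 : ℝ) ≤ ε / 2) fun t ht => ?_).trans_lt (by linarith)
    have h0 := spectrum_nonneg_of_nonneg hx ht
    have h1 := ramp_nonneg (a n) (a (n + 1)) t
    have h2 := ramp_le (a n) (a (n + 1)) t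
    rw [Real.norm_of_nonneg (by nlinarith)]
    rcases le_total t (a (n + 1)) with h | h
    · nlinarith [a2 (n + 1)]
    · rw [ramp_one (lt n) h]; linarith

theorem exists_cut {W : G} (hW : 0 ≤ W) {lam mu : ℝ} (h0 : 0 < lam) (h1 : lam < mu) :
    ∃ X X' g : G, 0 ≤ X ∧ 0 ≤ X' ∧ IsSelfAdjoint g ∧ X = g * W ∧ X = W * g ∧ ‖X‖ ≤ 1 ∧
      lam • (X * X) ≤ W ∧ X * X' = X' ∧ ∀ R : Rep G, ‖R.π X'‖ < 1 → ‖R.π W‖ < mu := by
  have hs := hW.isSelfAdjoint
  have hg := continuous_inv_max h0
  have hf : Continuous fun t : ℝ => max (t - lam) 0 / (mu - lam) := by fun_prop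
  have hX : Continuous fun t : ℝ => (max lam t)⁻¹ * t := hg.mul continuous_id
  have e1 : cfc (fun t : ℝ => (max lam t)⁻¹ * t) W = cfc (fun t : ℝ => (max lam t)⁻¹) W * W := by
    rw [cfc_mul _ _ _ hg.continuousOn, cfc_id' ℝ W]
  have hp : ∀ t, 0 < max lam t := fun t => lt_max_of_lt_left h0
  have hb : ∀ t, (max lam t)⁻¹ * t ≤ 1 := fun t =>
    (inv_mul_le_iff₀ (hp t)).2 (by rw [mul_one]; exact le_max_right _ _)
  have hX' : 0 ≤ cfc (fun t : ℝ => max (t - lam) 0 / (mu - lam)) W :=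
    cfc_nonneg fun t _ => div_nonneg (le_max_right _ _) (by linarith)
  refine ⟨cfc (fun t : ℝ => (max lam t)⁻¹ * t) W,
    cfc (fun t : ℝ => max (t - lam) 0 / (mu - lam)) W, cfc (fun t : ℝ => (max lam t)⁻¹) W,
    cfc_nonneg fun t ht => mul_nonneg (inv_nonneg.2 (hp t).le) (spectrum_nonneg_of_nonneg hW ht),
    hX', cfc_predicate _ _, e1, e1.trans ((Commute.refl W).cfc_real _).eq,
    norm_cfc_le zero_le_one fun t ht => ?_, ?_, ?_, fun R hR => ?_⟩
  · rw [Real.norm_of_nonneg
      (mul_nonneg (inv_nonneg.2 (hp t).le) (spectrum_nonneg_of_nonneg hW ht))]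
    exact hb t
  · rw [← cfc_mul _ _ _ hX.continuousOn hX.continuousOn,
      ← cfc_smul lam _ W (hX.fun_mul hX).continuousOn]
    nth_rw 2 [← cfc_id' ℝ W]
    refine cfc_mono (fun t ht => ?_) ((hX.fun_mul hX).fun_const_smul lam).continuousOn
    have ht0 := spectrum_nonneg_of_nonneg hW ht
    have h2 : lam * ((max lam t)⁻¹ * t) ≤ t := by
      rw [← mul_assoc]
      exact mul_le_of_le_one_left ht0 ((mul_inv_le_iff₀ (hp t)).2
        (by rw [one_mul]; exact le_max_left _ _))
    have h3 : 0 ≤ lam * ((max lam t)⁻¹ * t) :=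
      mul_nonneg h0.le (mul_nonneg (inv_nonneg.2 (hp t).le) ht0)
    rw [smul_eq_mul, ← mul_assoc]
    exact (mul_le_of_le_one_right h3 (hb t)).trans h2
  · rw [← cfc_mul _ _ _ hX.continuousOn hf.continuousOn]
    refine cfc_congr fun t _ => ?_
    rcases le_total t lam with h | h
    · simp only [max_eq_right (sub_nonpos.2 h), zero_div, mul_zero]
    · simp only [max_eq_right h, inv_mul_cancel₀ (h0.trans_le h).ne', one_mul]
  · have h2 : W ≤ lam • (1 : G) +
        (mu - lam) • cfc (fun t : ℝ => max (t - lam) 0 / (mu - lam)) W := by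
      rw [← cfc_smul _ _ W hf.continuousOn, ← Algebra.algebraMap_eq_smul_one,
        ← cfc_const_add lam _ W (hf.fun_const_smul _).continuousOn]
      nth_rw 1 [← cfc_id' ℝ W]
      refine cfc_mono (fun t _ => ?_) (by fun_prop)
        (continuous_const.fun_add (hf.fun_const_smul _)).continuousOn
      rw [smul_eq_mul, mul_div_cancel₀ _ (by linarith : mu - lam ≠ 0)]
      linarith [le_max_left (t - lam) 0]
    have h3 := R.mono h2
    rw [map_add, map_smul_real, map_smul_real, map_one] at h3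
    have h4 := (R.nonneg hX').isSelfAdjoint.le_algebraMap_norm_self
    rw [Algebra.algebraMap_eq_smul_one] at h4
    have h5 := h3.trans (add_le_add le_rfl (smul_le_smul_of_nonneg_left h4 (by linarith)))
    rw [smul_smul, ← add_smul, ← Algebra.algebraMap_eq_smul_one] at h5
    have h6 := (CStarAlgebra.norm_le_iff_le_algebraMap _
      (add_nonneg h0.le (mul_nonneg (by linarith) (norm_nonneg _))) (R.nonneg hW)).2 h5
    nlinarith

/-- The gadget for `lemP`. -/
theorem exists_split {h : G} (hh : IsSelfAdjoint h) {η : ℝ} (hη : 0 < η) :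
    ∃ F S k : G, IsSelfAdjoint F ∧ IsSelfAdjoint S ∧ F * F + S * S = 1 ∧ 0 ≤ F * h * F ∧
      F * k = k ∧ h ≤ η • (1 : G) + k ∧ (∀ e, e * h = 0 → e * F = 0) ∧
      ∀ e, Commute h e → Commute S e := by
  have hf := ramp_cont 0 η
  have hS : Continuous fun t => √(1 - ramp 0 η t * ramp 0 η t) := by fun_prop
  have hk : Continuous fun t : ℝ => max (t - η) 0 := by fun_prop
  refine ⟨cfc (ramp 0 η) h, cfc (fun t => √(1 - ramp 0 η t * ramp 0 η t)) h,
    cfc (fun t : ℝ => max (t - η) 0) h, cfc_predicate _ _, cfc_predicate _ _, ?_, ?_, ?_, ?_,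
    sub_cfc hh hf (ramp_zero hη le_rfl), fun e he => he.cfc_real _⟩
  · rw [← cfc_mul _ _ _ hf.continuousOn hf.continuousOn,
      ← cfc_mul _ _ _ hS.continuousOn hS.continuousOn,
      ← cfc_add _ _ _ (hf.fun_mul hf).continuousOn (hS.fun_mul hS).continuousOn, ← cfc_const_one ℝ h]
    refine cfc_congr fun t _ => ?_
    have h1 := ramp_nonneg 0 η t
    have h2 := ramp_le 0 η t
    simp only [Real.mul_self_sqrt (show 0 ≤ 1 - ramp 0 η t * ramp 0 η t by nlinarith)]
    ring
  · have e : cfc (ramp 0 η) h * h * cfc (ramp 0 η) h =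
        cfc (fun t => ramp 0 η t * t * ramp 0 η t) h := by
      rw [cfc_mul .., cfc_mul .., cfc_id' ℝ h]
    rw [e]
    refine cfc_nonneg fun t _ => ?_
    rcases le_total t 0 with ht | ht
    · rw [ramp_zero hη ht, mul_zero]
    · exact mul_nonneg (mul_nonneg (ramp_nonneg _ _ _) ht) (ramp_nonneg _ _ _)
  · rw [← cfc_mul _ _ _ hf.continuousOn hk.continuousOn]
    refine cfc_congr fun t _ => ?_
    rcases le_total t η with ht | ht
    · simp only [max_eq_right (sub_nonpos.2 ht), mul_zero]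
    · simp only [ramp_one hη ht, one_mul]
  · rw [← Algebra.algebraMap_eq_smul_one, ← cfc_const_add η _ h hk.continuousOn]
    nth_rw 1 [← cfc_id' ℝ h]
    refine cfc_mono (fun t _ => ?_) (by fun_prop) (by fun_prop)
    linarith [le_max_left (t - η) 0]

/-- Orthogonal square roots of the positive and negative parts. -/
theorem exists_pm {h : G} (hh : IsSelfAdjoint h) :
    ∃ k k' : G, IsSelfAdjoint k ∧ IsSelfAdjoint k' ∧ k * k' = 0 ∧ h ≤ k * k ∧ -h ≤ k' * k' ∧
      Sub h k ∧ Sub h k' := by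
  have h1 : Continuous fun t : ℝ => √(max t 0) := by fun_prop
  have h2 : Continuous fun t : ℝ => √(max (-t) 0) := by fun_prop
  refine ⟨cfc (fun t : ℝ => √(max t 0)) h, cfc (fun t : ℝ => √(max (-t) 0)) h,
    cfc_predicate _ _, cfc_predicate _ _, ?_, ?_, ?_, sub_cfc hh h1 (by simp),
    sub_cfc hh h2 (by simp)⟩
  · rw [← cfc_mul _ _ _ h1.continuousOn h2.continuousOn, ← cfc_const_zero ℝ h]
    refine cfc_congr fun t _ => ?_
    rcases le_total t 0 with ht | ht
    · simp only [max_eq_right ht, Real.sqrt_zero, zero_mul]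
    · simp only [max_eq_right (neg_nonpos.2 ht), Real.sqrt_zero, mul_zero]
  · rw [← cfc_mul _ _ _ h1.continuousOn h1.continuousOn]
    nth_rw 1 [← cfc_id' ℝ h]
    refine cfc_mono (fun t _ => ?_) (by fun_prop) (by fun_prop)
    rw [Real.mul_self_sqrt (le_max_right _ _)]
    exact le_max_left _ _
  · rw [← cfc_mul _ _ _ h2.continuousOn h2.continuousOn, ← cfc_neg_id (R := ℝ) h]
    refine cfc_mono (fun t _ => ?_) (by fun_prop) (by fun_prop)
    rw [Real.mul_self_sqrt (le_max_right _ _)]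
    exact le_max_left _ _

lemma Chain.sa {x : G} {ε : ℝ} {l : ℕ → G} (h : Chain x ε l) (n : ℕ) : IsSelfAdjoint (l n) :=
  (h.nonneg n).isSelfAdjoint

lemma Chain.mul_of_lt {x : G} {ε : ℝ} {l : ℕ → G} (h : Chain x ε l) {m n : ℕ} (hmn : m < n) :
    l m * l n = l n := by
  induction hmn with
  | refl => exact h.mul m
  | step _ ih => rw [← h.mul, ← mul_assoc, ih]

lemma Chain.mul_of_gt {x : G} {ε : ℝ} {l : ℕ → G} (h : Chain x ε l) {m n : ℕ} (hmn : m < n) :
    l n * l m = l n := by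
  simpa only [star_mul, (h.sa _).star_eq] using congrArg star (h.mul_of_lt hmn)

lemma Chain.sub {x : G} {ε : ℝ} {l : ℕ → G} (h : Chain x ε l) (n : ℕ) : Sub x (l n) := by
  obtain ⟨g, hg⟩ := h.fac n
  exact hg ▸ (Sub.refl x).mul_right g

lemma Chain.isIn {x : G} {ε : ℝ} {l : ℕ → G} (h : Chain x ε l) (n : ℕ) : In x (l n) := by
  obtain ⟨g, hg⟩ := h.fac n
  exact hg ▸ (In.refl x).mul_right g

lemma Chain.mem {x : G} {ε : ℝ} {l : ℕ → G} (h : Chain x ε l) (n : ℕ) {M : Ideal G}
    [M.IsTwoSided] (hx : x ∈ M) : l n ∈ M := by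
  obtain ⟨g, hg⟩ := h.fac n
  exact hg ▸ M.mul_mem_right g hx

lemma Chain.lt_of_eq_zero {x : G} {ε : ℝ} {l : ℕ → G} (h : Chain x ε l) (R : Rep G) {n : ℕ}
    (h0 : R.π (l n) = 0) : ‖R.π x‖ < ε := by
  have := (R.norm_le _).trans_lt (h.close n)
  rwa [map_sub, map_mul, h0, mul_zero, sub_zero] at this

lemma Chain.lt_of_lt_one {x : G} {ε : ℝ} {l : ℕ → G} (h : Chain x ε l) (R : Rep G) {n : ℕ}
    (h0 : ‖R.π (l n)‖ < 1) : ‖R.π x‖ < ε :=
  h.lt_of_eq_zero R (R.eq_zero_of_unit (h.mul n) h0)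

end Vale.Agent.P133
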