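import Vale.Agent.P133.Basic

/-! Compactness lemmas and the `Bad` predicate. -/

namespace Vale.Agent.P133
open Vale.Agent.P101
open scoped CStarAlgebra
universe u
variable {G : Type u} [CStarAlgebra G]

/-- Compactness: if `x` lies in the ideal generated by `k` and `y`, a unit from the ideal of `y`
absorbs `x` modulo `k`. -/
theorem cpt {k y x : G} (h : ∀ R : Rep G, R.π k = 0 → R.π y = 0 → R.π x = 0) {δ : ℝ}
    (hδ : 0 < δ) : ∃ ρ, In y ρ ∧ ∀ R : Rep G, R.π k = 0 → ‖R.π x‖ ≤ ‖R.π (x * ρ)‖ + δ := by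
  have h2 : (cid k ⊔ cid y).IsTwoSided := ⟨fun {a} b ha => by
    obtain ⟨j, hj, j', hj', rfl⟩ := Submodule.mem_sup.1 ha
    rw [add_mul]
    exact Submodule.add_mem_sup (Ideal.mul_mem_right b _ hj) (Ideal.mul_mem_right b _ hj')⟩
  have h3 := closure_twoSided (cid k ⊔ cid y)
  have hcl : IsClosed ((cid k ⊔ cid y).closure : Set G) := isClosed_closure
  have h4 := starIdeal_of_isClosed _ hcl
  have hx : x ∈ (cid k ⊔ cid y).closure := (Rep.quo_eq_zero _).1 (h (Rep.quo _)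
    ((Rep.quo_eq_zero _).2 (subset_closure (Submodule.mem_sup_left (In.refl k))))
    ((Rep.quo_eq_zero _).2 (subset_closure (Submodule.mem_sup_right (In.refl y)))))
  obtain ⟨j, hj, hd⟩ := Metric.mem_closure_iff.1 hx _ (half_pos hδ)
  obtain ⟨j₁, hj₁, j₂, hj₂, rfl⟩ := Submodule.mem_sup.1 hj
  obtain ⟨ρ, hρ, -, h1, h5⟩ := exists_local_unit (cid y) hj₂ (half_pos hδ)
  refine ⟨ρ, hρ, fun R hR => ?_⟩
  have e : R.π x = R.π (x * ρ) + R.π ((x - (j₁ + j₂)) * (1 - ρ) + j₂ * (1 - ρ)) := by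
    have : x = x * ρ + ((x - (j₁ + j₂)) * (1 - ρ) + j₂ * (1 - ρ)) + j₁ * (1 - ρ) := by
      noncomm_ring
    nth_rw 1 [this]
    rw [map_add, map_add, map_mul R.π j₁, hj₁ R hR, zero_mul, add_zero]
  rw [dist_eq_norm] at hd
  have h6 : ‖(x - (j₁ + j₂)) * (1 - ρ)‖ ≤ δ / 2 :=
    (norm_mul_le _ _).trans ((mul_le_of_le_one_right (norm_nonneg _) h1).trans hd.le)
  rw [e]
  refine (norm_add_le _ _).trans (add_le_add le_rfl ((R.norm_le _).trans
    ((norm_add_le _ _).trans (by linarith))))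

/-- Uniformity. -/
theorem exists_unif {k x : G} (h : ∀ R : Rep G, R.π k = 0 → ‖R.π x‖ < 1) :
    ∃ η > 0, ∀ R : Rep G, ‖R.π k‖ < η → ‖R.π x‖ < 1 := by
  have hmul : ∀ (c j : G) (f : G → G), (∀ (R : Rep G), ‖R.π (f j)‖ ≤ ‖c‖ * ‖R.π j‖) →
      (∀ δ > 0, ∃ η > 0, ∀ R : Rep G, ‖R.π k‖ < η → ‖R.π j‖ < δ) →
      ∀ δ > 0, ∃ η > 0, ∀ R : Rep G, ‖R.π k‖ < η → ‖R.π (f j)‖ < δ := by
    intro c j f hf hj δ hδ
    obtain ⟨η, hη, h1⟩ := hj (δ / (‖c‖ + 1)) (by positivity)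
    refine ⟨η, hη, fun R hR => (hf R).trans_lt ?_⟩
    have := h1 R hR
    rw [lt_div_iff₀ (by positivity)] at this
    nlinarith [norm_nonneg (R.π j)]
  let L : Ideal G := mkIdeal {j | ∀ δ > 0, ∃ η > 0, ∀ R : Rep G, ‖R.π k‖ < η → ‖R.π j‖ < δ}
    (fun δ hδ => ⟨1, one_pos, fun R _ => by rwa [map_zero, norm_zero]⟩)
    (fun a ha b hb δ hδ => by
      obtain ⟨η, hη, h1⟩ := ha _ (half_pos hδ)
      obtain ⟨η', hη', h2⟩ := hb _ (half_pos hδ)
      refine ⟨min η η', lt_min hη hη', fun R hR => ?_⟩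
      rw [map_add]
      linarith [norm_add_le (R.π a) (R.π b), h1 R (hR.trans_le (min_le_left _ _)),
        h2 R (hR.trans_le (min_le_right _ _))])
    (fun c a ha => hmul c a (c * ·) (fun R => by
      rw [map_mul]
      exact (norm_mul_le _ _).trans (mul_le_mul_of_nonneg_right (R.norm_le c) (norm_nonneg _))) ha)
  have h2 : L.IsTwoSided := ⟨fun {a} c ha => hmul c a (· * c) (fun R => by
      rw [map_mul, mul_comm]
      exact (norm_mul_le _ _).trans (mul_le_mul_of_nonneg_left (R.norm_le c) (norm_nonneg _))) ha⟩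
  have hcl : IsClosed (L : Set G) := by
    refine isClosed_of_closure_subset fun a ha δ hδ => ?_
    obtain ⟨b, hb, hd⟩ := Metric.mem_closure_iff.1 ha _ (half_pos hδ)
    obtain ⟨η, hη, h1⟩ := hb _ (half_pos hδ)
    refine ⟨η, hη, fun R hR => ?_⟩
    rw [dist_eq_norm] at hd
    have h3 := R.norm_le (a - b)
    rw [map_sub] at h3
    linarith [norm_sub_norm_le (R.π a) (R.π b), h1 R hR]
  have h4 := starIdeal_of_isClosed L hcl
  have hk : k ∈ L := fun δ hδ => ⟨δ, hδ, fun _ h => h⟩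
  have h5 : ‖Quo.mk L x‖ < 1 := h (Rep.quo L) ((Rep.quo_eq_zero L).2 hk)
  obtain ⟨a, ha, hn⟩ := Quo.norm_mk_lt L (Quo.mk L x) (sub_pos.2 h5)
  have h6 : x - a ∈ L := by rw [← Quo.mk_eq_zero, map_sub, ha, sub_self]
  obtain ⟨η, hη, h1⟩ := h6 (1 - ‖a‖) (by linarith)
  refine ⟨η, hη, fun R hR => ?_⟩
  have h7 := h1 R hR
  rw [map_sub] at h7
  linarith [norm_sub_norm_le (R.π x) (R.π a), R.norm_le a]

lemma cfc_max_eq_zero_iff [PartialOrder G] [StarOrderedRing G] {h : G} (hh : IsSelfAdjoint h) :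
    cfc (fun t : ℝ => max t 0) h = 0 ↔ h ≤ 0 := by
  rw [← cfc_const_zero ℝ h, cfc_eq_cfc_iff_eqOn]
  nth_rw 2 [← cfc_id' ℝ h]
  rw [cfc_le_iff _ _ _]
  exact forall₂_congr fun t _ => max_eq_right_iff

/-- `Bad` is the vanishing of a single element. -/
theorem exists_bad_gen {x T : G} (hx : IsSelfAdjoint x) (hT : IsSelfAdjoint T) (θ : ℝ) :
    ∃ k : G, ∀ R : Rep G, R.π k = 0 ↔ Bad R x T θ := by
  have hh : IsSelfAdjoint (θ • (x * x) - x * T * x) := by
    refine ((IsSelfAdjoint.all θ).smul ?_).sub ?_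
    · simpa only [hx.star_eq] using IsSelfAdjoint.star_mul_self x
    · simpa only [hx.star_eq] using hT.conjugate x
  refine ⟨cfc (fun t : ℝ => max t 0) (θ • (x * x) - x * T * x), fun R => ?_⟩
  rw [map_cfc_real R.π (by fun_prop) hh, cfc_max_eq_zero_iff (hh.map R.π), map_sub, sub_nonpos,
    map_smul_real]
  rfl

lemma Bad.conj {R : Rep G} {x T a : G} {θ : ℝ} (h : Bad R x T θ) (hx : IsSelfAdjoint x)
    (ha : x * a = a) : θ • R.π (star a * a) ≤ R.π (star a * T * a) := by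
  have ha' : star a * x = star a := by simpa only [star_mul, hx.star_eq] using congrArg star ha
  have := star_left_conjugate_le_conjugate h (R.π a)
  rw [mul_smul_comm, smul_mul_assoc, ← map_star, ← map_mul, ← map_mul, ← map_mul, ← map_mul,
    ← mul_assoc, ← mul_assoc, ← mul_assoc, ha', mul_assoc _ x, mul_assoc _ x, ha] at this
  exact this

theorem Bad.test {R : Rep G} {x T a : G} {θ : ℝ} (h : Bad R x T θ) (hx : IsSelfAdjoint x)
    (ha : x * a = a) (hθ : 0 ≤ θ) : θ * ‖R.π a‖ ^ 2 ≤ ‖R.π (star a * T * a)‖ := by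
  have h0 : 0 ≤ R.π (star a * a) := by rw [map_mul, map_star]; exact star_mul_self_nonneg _
  have := CStarAlgebra.norm_le_norm_of_nonneg_of_le (smul_nonneg hθ h0) (h.conj hx ha)
  rwa [norm_smul, Real.norm_of_nonneg hθ, map_mul, map_star, CStarRing.norm_star_mul_self,
    ← sq] at this

theorem Bad.sub {R : Rep G} {x x' T : G} {θ : ℝ} (h : Bad R x T θ) (hx : IsSelfAdjoint x)
    (hx' : IsSelfAdjoint x') (ha : x * x' = x') : Bad R x' T θ := by
  simpa only [Bad, hx'.star_eq] using h.conj hx ha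

variable [PartialOrder G] [StarOrderedRing G]

theorem Bad.mono {R : Rep G} {x T T' : G} {θ θ' A Γ : ℝ} (h : Bad R x T θ)
    (hx : IsSelfAdjoint x) (hΓ : 0 < Γ) (hθ : θ' * Γ ≤ θ - A)
    (hT : x * T * x ≤ A • (x * x) + Γ • (x * T' * x)) : Bad R x T' θ' := by
  have h0 : 0 ≤ R.π (x * x) :=
    R.nonneg (by simpa only [hx.star_eq] using star_mul_self_nonneg x)
  have h1 := h.trans (R.mono hT)
  rw [map_add, map_smul_real, map_smul_real, ← sub_le_iff_le_add', ← sub_smul] at h1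
  have h2 := smul_le_smul_of_nonneg_left ((smul_le_smul_of_nonneg_right hθ h0).trans h1)
    (inv_nonneg.2 hΓ.le)
  rwa [smul_smul, smul_smul, inv_mul_cancel₀ hΓ.ne', one_smul, mul_comm θ', ← mul_assoc,
    inv_mul_cancel₀ hΓ.ne', one_mul] at h2

end Vale.Agent.P133
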