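import Vale.Agent.P133.Step

/-! Iterating the contraction step. -/

namespace Vale.Agent.P133
open Vale.Agent.P101
open scoped CStarAlgebra
universe u
variable {G : Type u} [CStarAlgebra G] [PartialOrder G] [StarOrderedRing G]

theorem iter {M : Ideal G} [M.IsTwoSided] (hM : ∀ z ∈ M, 0 ≤ z → PI z) {x y : G}
    (hx0 : 0 ≤ x) (hx : x ∈ M) (hy0 : 0 ≤ y) (hy : y ∈ M) (n : ℕ) :
    ∃ X X' Y Y', Lev M x X X' ∧ Lev M y Y Y' ∧ ‖Y * X‖ ≤ (99 / 100) ^ (n + 1) := by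
  have key : ∀ {x X X' X₂ X₂' : G}, Lev M x X X' → Lev M X' X₂ X₂' →
      Lev M x X₂ X₂' ∧ X * X₂ = X₂ := fun {x X X' X₂ X₂'} h h' =>
    have e := h'.sub.unit h.unit
    ⟨⟨h'.mem, h'.nonneg, h'.sa, h'.unit, e ▸ h.sub.mul_right X₂,
      fun R hR => h.full R (h'.full R hR)⟩, e⟩
  induction n with
  | zero =>
    obtain ⟨X, X', Y, Y', h1, h2, h3⟩ := step hM (c := 1) (IsStarProjection.one G).norm_le hx0 hx hy0 hy
    exact ⟨X, X', Y, Y', h1, h2, by simpa only [mul_one, zero_add, pow_one] using h3⟩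
  | succ n ih =>
    obtain ⟨X, X', Y, Y', h1, h2, h3⟩ := ih
    have hp : (0 : ℝ) < (99 / 100) ^ (n + 1) := by positivity
    obtain ⟨X₂, X₂', Y₂, Y₂', k1, k2, k3⟩ :=
      step hM (c := ((99 / 100 : ℝ) ^ (n + 1))⁻¹ • (Y * X)) (by
        rw [norm_smul, Real.norm_of_nonneg (inv_nonneg.2 hp.le)]
        exact (inv_mul_le_iff₀ hp).2 (by rwa [mul_one])) h1.nonneg h1.mem h2.nonneg h2.mem
    obtain ⟨a1, a2⟩ := key h1 k1
    obtain ⟨b1, b2⟩ := key h2 k2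
    have b3 : Y₂ * Y = Y₂ := by
      simpa only [star_mul, h2.sa.star_eq, k2.sa.star_eq] using congrArg star b2
    refine ⟨X₂, X₂', Y₂, Y₂', a1, b1, ?_⟩
    rw [mul_smul_comm, smul_mul_assoc, ← mul_assoc, b3, mul_assoc Y₂, a2, norm_smul,
      Real.norm_of_nonneg (inv_nonneg.2 hp.le), inv_mul_le_iff₀ hp] at k3
    rwa [pow_succ]

lemma iter_side {M : Ideal G} [M.IsTwoSided] (hM : ∀ z ∈ M, 0 ≤ z → PI z) {x : G}
    (hx0 : 0 ≤ x) (hx : x ∈ M) {ε : ℝ} (hε : 0 < ε) : ∃ p ∈ M, 0 ≤ p ∧ ∀ X X', Lev M p X X' →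
      ∃ s ∈ M, ‖star s * (x * x) * s - x * x‖ < ε ∧ X * (x * s) = x * s ∧ ‖x * s‖ ≤ ‖x‖ := by
  have hs := hx0.isSelfAdjoint
  have hn := norm_nonneg x
  obtain ⟨p, hp⟩ := exists_chain hx0 (ε := ε / (2 * ‖x‖ + 1)) (by positivity)
  refine ⟨p 1, hp.mem 1 hx, hp.nonneg 1, fun X X' h => ?_⟩
  have ha : IsSelfAdjoint (x * p 3) := by
    rw [IsSelfAdjoint, star_mul, hs.star_eq, (hp.sa 3).star_eq, (hp.comm 3).eq]
  have ha1 : ‖x * p 3‖ ≤ ‖x‖ := (norm_mul_le _ _).trans (mul_le_of_le_one_right hn (hp.norm_le 3))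
  obtain ⟨w, -, hw, -, -, hw', -⟩ := (hM X' h.mem h.nonneg).two h.nonneg.isSelfAdjoint
    (u := p 2) (a := x * p 3)
    (fun R hR => R.eq_zero_of_unit (hp.mul 1) (h.full R (by rw [hR, norm_zero]; exact one_pos)))
    ha (by rw [(hp.comm 3).eq, ← mul_assoc, hp.mul 2])
  have e1 : X * w = w := hw'.unit h.unit
  have e2 : p 0 * w = w := by rw [← e1, ← mul_assoc, h.sub.unit (hp.mul 0)]
  obtain ⟨g, hg⟩ := hp.fac 0
  have e3 : x * (g * w) = w := by rw [← mul_assoc, ← hg, e2]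
  refine ⟨g * w, M.mul_mem_left g (e2 ▸ M.mul_mem_right w (hp.mem 0 hx)), ?_, by rw [e3, e1], ?_⟩
  · have e4 : star (g * w) * (x * x) * (g * w) = star (x * (g * w)) * (x * (g * w)) := by
      rw [star_mul x, hs.star_eq]; simp only [mul_assoc]
    have e5 : x * p 3 * (x * p 3) - x * x = -((x - x * p 3) * x + x * p 3 * (x - x * p 3)) := by
      noncomm_ring
    rw [e4, e3, hw, e5, norm_neg]
    have h1 := hp.close 3
    have h2 := norm_mul_le (x - x * p 3) x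
    have h3 := norm_mul_le (x * p 3) (x - x * p 3)
    have h4 := norm_nonneg (x - x * p 3)
    rw [lt_div_iff₀ (by positivity)] at h1
    refine (norm_add_le _ _).trans_lt ?_
    nlinarith [mul_le_mul_of_nonneg_right ha1 h4]
  · have h1 := congrArg norm hw
    nth_rw 1 [← ha.star_eq] at h1
    rw [CStarRing.norm_star_mul_self, CStarRing.norm_star_mul_self] at h1
    rw [e3, (mul_self_inj_of_nonneg (norm_nonneg _) (norm_nonneg _)).1 h1]
    exact ha1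

theorem spi_ideal {M : Ideal G} [M.IsTwoSided] (hM : ∀ z ∈ M, 0 ≤ z → PI z) {x y : G}
    (hx0 : 0 ≤ x) (hx : x ∈ M) (hy0 : 0 ≤ y) (hy : y ∈ M) {ε : ℝ} (hε : 0 < ε) :
    ∃ s ∈ M, ∃ t ∈ M, ‖star s * (x * x) * s - x * x‖ < ε ∧
      ‖star t * (y * y) * t - y * y‖ < ε ∧ ‖star s * (x * y) * t‖ < ε := by
  obtain ⟨p, hp, hp0, Hp⟩ := iter_side hM hx0 hx hε
  obtain ⟨q, hq, hq0, Hq⟩ := iter_side hM hy0 hy hε
  have hx' := norm_nonneg x
  have hy' := norm_nonneg y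
  obtain ⟨n, hn⟩ := exists_pow_lt_of_lt_one (x := ε / (‖x‖ * ‖y‖ + 1)) (y := (99 / 100 : ℝ))
    (by positivity) (by norm_num)
  obtain ⟨X, X', Y, Y', h1, h2, h3⟩ := iter hM hp0 hp hq0 hq n
  obtain ⟨s, hs, s1, s2, s3⟩ := Hp X X' h1
  obtain ⟨t, ht, t1, t2, t3⟩ := Hq Y Y' h2
  refine ⟨s, hs, t, ht, s1, t1, ?_⟩
  have e : star s * (x * y) * t = star (x * s) * star (Y * X) * (y * t) := by
    have e1 : star (x * s) * X = star (x * s) := by
      simpa only [star_mul X, h1.sa.star_eq] using congrArg star s2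
    rw [star_mul Y, h1.sa.star_eq, h2.sa.star_eq, ← mul_assoc _ X, e1, mul_assoc _ Y, t2,
      star_mul, hx0.isSelfAdjoint.star_eq]
    simp only [mul_assoc]
  have h4 : ‖star (x * s) * star (Y * X) * (y * t)‖ ≤ ‖x‖ * (99 / 100) ^ n * ‖y‖ := by
    refine (norm_mul_le _ _).trans (mul_le_mul ((norm_mul_le _ _).trans ?_) t3 (norm_nonneg _)
      (by positivity))
    rw [norm_star, norm_star]
    exact mul_le_mul s3 (h3.trans (pow_le_pow_of_le_one (by norm_num) (by norm_num)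
      (Nat.le_succ n))) (norm_nonneg _) hx'
  rw [lt_div_iff₀ (by positivity)] at hn
  rw [e]
  have h5 : (0 : ℝ) < (99 / 100) ^ n := by positivity
  nlinarith

end Vale.Agent.P133
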