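import Vale.Agent.P133.Ideal
import Vale.Agent.P133.Fun

/-! The case of a projection. -/

namespace Vale.Agent.P133
open Vale.Agent.P101
open scoped CStarAlgebra
universe u
variable {G : Type u} [CStarAlgebra G] [PartialOrder G] [StarOrderedRing G]

/-- Orthogonal contractions have a contractive sum of range supports. -/
lemma add_le_one_of_orth {s t : G} (hs : ‖s‖ ≤ 1) (ht : ‖t‖ ≤ 1) (h : star s * t = 0) :
    s * star s + t * star t ≤ 1 := by
  have h' : star t * s = 0 := by simpa only [star_mul, star_star, star_zero] using congrArg star h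
  have hP : 0 ≤ s * star s + t * star t :=
    add_nonneg (mul_star_self_nonneg s) (mul_star_self_nonneg t)
  have key : ∀ w : G, ‖w‖ ≤ 1 → w * (star w * w) * star w ≤ w * star w := fun w hw => by
    have := star_right_conjugate_le_conjugate
      ((CStarAlgebra.norm_le_one_iff_of_nonneg _ (star_mul_self_nonneg w)).1
        (by rw [CStarRing.norm_star_mul_self]; nlinarith [norm_nonneg w])) w
    rwa [mul_one] at this
  have h2 : star (s * star s + t * star t) * (s * star s + t * star t) ≤
      s * star s + t * star t := by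
    have e : star (s * star s + t * star t) * (s * star s + t * star t) =
        s * (star s * s) * star s + t * (star t * t) * star t + s * (star s * t) * star t +
          t * (star t * s) * star s := by
      simp only [star_add, star_mul, star_star]
      noncomm_ring
    rw [e, h, h']
    simpa only [mul_zero, zero_mul, add_zero] using add_le_add (key s hs) (key t ht)
  have h3 := CStarAlgebra.norm_le_norm_of_nonneg_of_le (star_mul_self_nonneg _) h2
  rw [CStarRing.norm_star_mul_self] at h3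
  refine (CStarAlgebra.norm_le_one_iff_of_nonneg _ hP).1 ?_
  nlinarith [norm_nonneg (s * star s + t * star t)]

lemma norm_sq_le_of_le {w : G} {r : ℝ} (hr : 0 ≤ r) (h : w * star w ≤ r • (1 : G)) :
    ‖w‖ ^ 2 ≤ r := by
  rw [sq, ← CStarRing.norm_self_mul_star,
    CStarAlgebra.norm_le_iff_le_algebraMap _ hr (mul_star_self_nonneg w)]
  rwa [Algebra.algebraMap_eq_smul_one]

omit [PartialOrder G] [StarOrderedRing G] in
lemma norm_mul_eq_of_iso {s v : G} (h : star s * s * v = v) : ‖s * v‖ = ‖v‖ := by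
  have : star (s * v) * (s * v) = star v * v := by
    rw [star_mul, mul_assoc, ← mul_assoc (star s), h]
  have h2 := congrArg norm this
  rw [CStarRing.norm_star_mul_self, CStarRing.norm_star_mul_self] at h2
  exact (mul_self_inj_of_nonneg (norm_nonneg _) (norm_nonneg _)).1 h2

theorem lemP {q c x s₁ s₂ v : G} (hq : IsStarProjection q) (hc : ‖c‖ ≤ 1)
    (hx : IsSelfAdjoint x) (h₁ : x * s₁ = s₁) (h₂ : x * s₂ = s₂) (n₁ : ‖s₁‖ ≤ 1)
    (n₂ : ‖s₂‖ ≤ 1) (h₁₂ : star s₁ * s₂ = 0) (v₁ : star s₁ * s₁ * v = v)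
    (v₂ : star s₂ * s₂ * v = v) :
    ∃ β : G, 0 ≤ β ∧ q * β = β ∧ (∀ R : Rep G, R.π q ≠ 0 → 1 ≤ ‖R.π β‖) ∧
      ∀ R : Rep G, Bad R x (star c * β * c) (9 / 16) → ‖R.π v‖ < 1 := by
  have hqs := hq.isSelfAdjoint.star_eq
  have hqq : q * q = q := hq.isIdempotentElem.eq
  have hq1 : q ≤ 1 := hq.le_one
  obtain ⟨h, hh⟩ : ∃ h, h = (1 / 2 : ℝ) • q - q * c * s₁ * star (q * c * s₁) := ⟨_, rfl⟩
  have hhs : IsSelfAdjoint h := hh ▸
    ((IsSelfAdjoint.all _).smul hq.isSelfAdjoint).sub (.mul_star_self _)
  have hqh : q * h = h := by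
    rw [hh, mul_sub, mul_smul_comm, hqq]
    simp only [← mul_assoc, hqq]
  obtain ⟨F, S, k, hF, hS, hFS, hFh, hFk, hk, hF0, hSc⟩ :=
    exists_split hhs (η := 1 / 32) (by norm_num)
  have hqF : q * F = F := by
    have := hF0 (1 - q) (by rw [sub_mul, one_mul, hqh, sub_self])
    rw [sub_mul, one_mul, sub_eq_zero] at this
    exact this.symm
  have hFq : F * q = F := by simpa only [star_mul, hqs, hF.star_eq] using congrArg star hqF
  have hSq : S * q = q * S := hSc q (by
    have : h * q = h := by simpa only [star_mul, hqs, hhs.star_eq] using congrArg star hqh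
    exact this.trans hqh.symm)
  have hFF : F * F ≤ 1 := hFS ▸ le_add_of_nonneg_right
    (by simpa only [hS.star_eq] using star_mul_self_nonneg S)
  have hn1 : ‖F * c * s₁‖ ^ 2 ≤ 1 / 2 := by
    refine norm_sq_le_of_le (by norm_num) ?_
    have e : F * c * s₁ * star (F * c * s₁) = (1 / 2 : ℝ) • (F * F) - F * h * F := by
      rw [hh]
      simp only [star_mul, hF.star_eq, hqs, mul_sub, sub_mul, mul_smul_comm, smul_mul_assoc,
        ← mul_assoc, hFq]
      simp only [mul_assoc, hqF]
      abel
    rw [e]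
    exact (sub_le_self _ hFh).trans (smul_le_smul_of_nonneg_left hFF (by norm_num))
  have hsum : q * c * s₂ * star (q * c * s₂) ≤ (17 / 32 : ℝ) • (1 : G) + k := by
    have h1 := star_right_conjugate_le_conjugate (add_le_one_of_orth n₁ n₂ h₁₂) (q * c)
    have h2 := star_right_conjugate_le_conjugate
      ((CStarAlgebra.norm_le_one_iff_of_nonneg _ (mul_star_self_nonneg c)).1
        (by rw [CStarRing.norm_self_mul_star]; nlinarith [norm_nonneg c])) q
    have e1 : q * c * (s₁ * star s₁ + s₂ * star s₂) * star (q * c) =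
        q * c * s₁ * star (q * c * s₁) + q * c * s₂ * star (q * c * s₂) := by
      simp only [star_mul, mul_add, add_mul, mul_assoc]
    have e2 : q * c * 1 * star (q * c) = q * (c * star c) * star q := by
      simp only [star_mul, mul_one, mul_assoc]
    rw [e1, e2] at h1
    rw [mul_one, hqs, hqq] at h2
    rw [hqs] at h1
    have h3 : q * c * s₂ * star (q * c * s₂) ≤ (1 / 2 : ℝ) • q + h := by
      have e3 : (1 / 2 : ℝ) • q + h = q - q * c * s₁ * star (q * c * s₁) := by
        rw [hh, ← add_sub_assoc, ← add_smul]; norm_num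
      rw [e3, le_sub_iff_add_le']
      exact h1.trans h2
    refine h3.trans ((add_le_add (smul_le_smul_of_nonneg_left hq1 (by norm_num)) hk).trans_eq ?_)
    rw [← add_assoc, ← add_smul]; norm_num
  have eq : ∀ a : G, star a * (star c * q * c) * a = star (q * c * a) * (q * c * a) := fun a => by
    simp only [star_mul, hqs, mul_assoc]
    rw [← mul_assoc q q, hqq]
  obtain ⟨k', hk'⟩ := exists_bad_gen hx (T := star c * q * c)
    (star_left_conjugate_nonneg hq.nonneg c).isSelfAdjoint (9 / 16)
  have nsm : ∀ (R : Rep G) (a : G), ‖R.π (star a * a)‖ = ‖R.π a‖ ^ 2 := fun R a => by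
    rw [map_mul, map_star, CStarRing.norm_star_mul_self, sq]
  obtain ⟨ρ, hρ, hρ'⟩ := cpt (k := k') (y := k) (x := v) (fun R r1 r2 => by
    have h1 := ((hk' R).1 r1).test hx (a := s₂ * v) (by rw [← mul_assoc, h₂]) (by norm_num)
    have h2 : ‖R.π (s₂ * v)‖ = ‖R.π v‖ := by
      rw [map_mul]
      exact norm_mul_eq_of_iso (by rw [← map_star, ← map_mul, ← map_mul, v₂])
    have h3 : ‖R.π (q * c * s₂)‖ ^ 2 ≤ 17 / 32 := by
      refine norm_sq_le_of_le (by norm_num) ?_
      have := R.mono hsum
      rwa [map_add, r2, add_zero, map_smul_real, map_one, map_mul, map_star] at this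
    have h4 : ‖R.π (q * c * (s₂ * v))‖ ≤ ‖R.π (q * c * s₂)‖ * ‖R.π v‖ := by
      rw [← mul_assoc, map_mul]; exact norm_mul_le _ _
    rw [eq, nsm, h2] at h1
    have h5 := pow_le_pow_left₀ (norm_nonneg _) h4 2
    rw [mul_pow] at h5
    have h6 : ‖R.π v‖ ^ 2 ≤ 0 := by nlinarith [sq_nonneg ‖R.π v‖]
    exact norm_eq_zero.1 (pow_eq_zero_iff two_ne_zero |>.1 (le_antisymm h6 (sq_nonneg _))))
    (δ := 1 / 8) (by norm_num)
  have hin : In k (q * S * c * (s₁ * (v * ρ))) := ((hρ.mul_left _).mul_left _).mul_left _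
  obtain ⟨e, he, -, he1, he2⟩ := hin.exists_unit (δ := 1 / 8) (by norm_num)
  obtain ⟨n, hn⟩ : ∃ n, n = (1 - e) * (q * S) := ⟨_, rfl⟩
  have hqS : star (q * S) * (q * S) = q - F * F := by
    rw [star_mul, hS.star_eq, hqs, mul_assoc, ← mul_assoc q, hqq, ← mul_assoc, hSq, mul_assoc,
      eq_sub_of_add_eq' hFS, mul_sub, mul_one, ← mul_assoc, hqF]
  have hF2 : 0 ≤ F * F := by simpa only [hF.star_eq] using star_mul_self_nonneg F
  have hβq : F * F + star n * n ≤ q := by
    have h1 : star n * n ≤ star (q * S) * (q * S) := by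
      have := star_left_conjugate_le_conjugate
        ((CStarAlgebra.norm_le_one_iff_of_nonneg _ (star_mul_self_nonneg (1 - e))).1
          (by rw [CStarRing.norm_star_mul_self]; nlinarith [norm_nonneg (1 - e)])) (q * S)
      rw [mul_one] at this
      rw [hn, star_mul]
      simpa only [mul_assoc] using this
    rwa [hqS, le_sub_iff_add_le'] at h1
  refine ⟨F * F + star n * n, add_nonneg hF2 (star_mul_self_nonneg n), ?_, fun R hR => ?_,
    fun R hB => ?_⟩
  · rw [mul_add, ← mul_assoc, hqF, hn, star_mul, star_mul, hS.star_eq, hqs, hSq]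
    simp only [← mul_assoc, hqq]
  · by_cases hk0 : R.π k = 0
    · have h1 : R.π n = R.π (q * S) := by
        rw [hn, map_mul, map_sub, he R hk0, map_one, sub_zero, one_mul]
      have h2 : R.π (F * F + star n * n) = R.π q := by
        rw [map_add, map_mul R.π (star n), map_star, h1, ← map_star, ← map_mul, hqS, ← map_add,
          add_sub_cancel]
      rw [h2]
      exact one_le_norm_of_unit (by rw [← map_mul, hqq]) hR
    · have h1 : 1 ≤ ‖R.π F‖ := one_le_norm_of_unit (by rw [← map_mul, hFk]) hk0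
      refine le_trans ?_ (CStarAlgebra.norm_le_norm_of_nonneg_of_le (R.nonneg hF2)
        (R.mono (le_add_of_nonneg_right (star_mul_self_nonneg n))))
      nth_rw 1 [← hF.star_eq]
      rw [nsm]
      nlinarith
  · have hB2 : Bad R x (star c * q * c) (9 / 16) := by
      refine hB.mono hx (A := 0) one_pos (by norm_num) ?_
      rw [zero_smul, zero_add, one_smul]
      exact hx.conjugate_le_conjugate (star_left_conjugate_le_conjugate hβq c)
    have h4 := hρ' R ((hk' R).2 hB2)
    have h5 := hB.test hx (a := s₁ * (v * ρ)) (by rw [← mul_assoc, h₁]) (by norm_num)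
    have e5 : ∀ a : G, star a * (star c * (F * F + star n * n) * c) * a =
        star (F * c * a) * (F * c * a) + star (n * c * a) * (n * c * a) := fun a => by
      simp only [star_mul, hF.star_eq, mul_add, add_mul, mul_assoc]
    have h2 : ‖R.π (s₁ * (v * ρ))‖ = ‖R.π (v * ρ)‖ := by
      rw [map_mul]
      exact norm_mul_eq_of_iso (by rw [← map_star, ← map_mul, ← map_mul, ← mul_assoc, v₁])
    rw [e5, map_add, h2] at h5
    have h6 := h5.trans (norm_add_le _ _)
    rw [nsm, nsm] at h6
    have h7 : ‖R.π (F * c * (s₁ * (v * ρ)))‖ ≤ ‖F * c * s₁‖ * ‖R.π (v * ρ)‖ := by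
      rw [← mul_assoc, map_mul]
      exact (norm_mul_le _ _).trans (mul_le_mul_of_nonneg_right (R.norm_le _) (norm_nonneg _))
    have h8 : ‖R.π (n * c * (s₁ * (v * ρ)))‖ ≤ 1 / 8 :=
      (R.norm_le _).trans (by rw [hn]; simpa only [mul_assoc] using he2)
    have h9 := pow_le_pow_left₀ (norm_nonneg _) h7 2
    have h10 := pow_le_pow_left₀ (norm_nonneg _) h8 2
    rw [mul_pow] at h9
    have h11 : ‖R.π (v * ρ)‖ ^ 2 ≤ (1 / 2) ^ 2 := by nlinarith [sq_nonneg ‖R.π (v * ρ)‖]
    have h12 := abs_le_of_sq_le_sq' h11 (by norm_num)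
    linarith [h12.2]

end Vale.Agent.P133
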