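import Vale.Agent.P133.Fun

/-! Consequences of proper infiniteness. -/

namespace Vale.Agent.P133
open Vale.Agent.P101
open scoped CStarAlgebra
universe u
variable {G : Type u} [CStarAlgebra G] [PartialOrder G] [StarOrderedRing G]

namespace PIx

lemma le_smul_one {z : G} (hz : IsSelfAdjoint z) {ε : ℝ} (h : ‖z‖ ≤ ε) : z ≤ ε • (1 : G) := by
  refine hz.le_algebraMap_norm_self.trans ?_
  rw [Algebra.algebraMap_eq_smul_one]
  exact smul_le_smul_of_nonneg_right h zero_le_one

lemma le_add_of_norm {a b : G} (ha : IsSelfAdjoint a) (hb : IsSelfAdjoint b) {ε : ℝ}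
    (h : ‖a - b‖ ≤ ε) : a ≤ b + ε • (1 : G) := by
  have := le_smul_one (ha.sub hb) h
  rwa [sub_le_iff_le_add'] at this

omit [PartialOrder G] [StarOrderedRing G] in
lemma sa_conj {Y : G} (hY : IsSelfAdjoint Y) (r : G) : IsSelfAdjoint (star r * Y * r) := by
  simp [IsSelfAdjoint, hY.star_eq, mul_assoc]

omit [PartialOrder G] [StarOrderedRing G] in
lemma norm_conj_le (a z b : G) {δ : ℝ} (h : ‖z‖ ≤ δ) : ‖star a * z * b‖ ≤ ‖a‖ * δ * ‖b‖ := by
  refine (norm_mul_le _ _).trans ?_
  gcongr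
  refine (norm_mul_le _ _).trans ?_
  rw [norm_star]
  gcongr

/-- almost domination by a single conjugate of `Y` -/
def Dm (Y A : G) : Prop := ∀ ε : ℝ, 0 < ε → ∃ r : G, A ≤ star r * Y * r + ε • (1 : G)

omit [StarOrderedRing G] in
lemma Dm.mono {Y A B : G} (h : Dm Y B) (hAB : A ≤ B) : Dm Y A := fun ε hε =>
  let ⟨r, hr⟩ := h ε hε; ⟨r, hAB.trans hr⟩

lemma Dm.smul {Y A : G} (h : Dm Y A) {c : ℝ} (hc : 0 ≤ c) : Dm Y (c • A) := fun ε hε => by
  obtain ⟨r, hr⟩ := h (ε / (c + 1)) (by positivity)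
  refine ⟨√c • r, (smul_le_smul_of_nonneg_left hr hc).trans ?_⟩
  rw [smul_add, star_smul, star_trivial (√c), smul_mul_assoc, smul_mul_assoc, mul_smul_comm,
    smul_smul (√c), Real.mul_self_sqrt hc, smul_smul]
  refine add_le_add le_rfl (smul_le_smul_of_nonneg_right ?_ zero_le_one)
  rw [← mul_div_assoc, div_le_iff₀ (by positivity)]
  nlinarith

lemma Dm.conj {Y A : G} (h : Dm Y A) (b : G) : Dm Y (star b * A * b) := fun ε hε => by
  obtain ⟨r, hr⟩ := h (ε / (‖b‖ ^ 2 + 1)) (by positivity)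
  refine ⟨r * b, (star_left_conjugate_le_conjugate hr b).trans ?_⟩
  rw [mul_add, add_mul, star_mul]
  refine add_le_add (le_of_eq (by simp only [mul_assoc])) ?_
  refine le_smul_one (sa_conj (IsSelfAdjoint.smul (.all _) (.one _)) b) ?_
  rw [mul_smul_comm, smul_mul_assoc, mul_one, norm_smul, CStarRing.norm_star_mul_self,
    Real.norm_of_nonneg (by positivity), div_mul_eq_mul_div, div_le_iff₀ (by positivity)]
  nlinarith

lemma Dm.add {y A B : G} (h : PI y) (hy : IsSelfAdjoint y) (hA : Dm (y * y) A)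
    (hB : Dm (y * y) B) : Dm (y * y) (A + B) := fun ε hε => by
  obtain ⟨r₁, h₁⟩ := hA (ε / 3) (by positivity)
  obtain ⟨r₂, h₂⟩ := hB (ε / 3) (by positivity)
  set δ := ε / 3 / ((‖r₁‖ + ‖r₂‖) ^ 2 + 1) with hδ
  obtain ⟨s, t, hs, ht, hst⟩ := h δ (by positivity)
  have hY : IsSelfAdjoint (y * y) := hy.mul_self_nonneg.isSelfAdjoint
  have hts : ‖star t * (y * y) * s‖ < δ := by
    rw [← norm_star, star_mul, star_mul, star_star, hY.star_eq, ← mul_assoc]
    exact hst
  refine ⟨s * r₁ + t * r₂, (add_le_add h₁ h₂).trans ?_⟩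
  have h3 : star r₁ * (y * y) * r₁ + star r₂ * (y * y) * r₂ ≤
      star (s * r₁ + t * r₂) * (y * y) * (s * r₁ + t * r₂) + (ε / 3) • (1 : G) := by
    refine le_add_of_norm ((sa_conj hY _).add (sa_conj hY _)) (sa_conj hY _) ?_
    have e : star r₁ * (y * y) * r₁ + star r₂ * (y * y) * r₂ -
        star (s * r₁ + t * r₂) * (y * y) * (s * r₁ + t * r₂) =
        -(star r₁ * (star s * (y * y) * s - y * y) * r₁ +
          star r₂ * (star t * (y * y) * t - y * y) * r₂ +
          star r₁ * (star s * (y * y) * t) * r₂ + star r₂ * (star t * (y * y) * s) * r₁) := by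
      simp only [star_add, star_mul]
      noncomm_ring
    rw [e, norm_neg]
    have n1 := norm_conj_le r₁ _ r₁ hs.le
    have n2 := norm_conj_le r₂ _ r₂ ht.le
    have n3 := norm_conj_le r₁ _ r₂ hst.le
    have n4 := norm_conj_le r₂ _ r₁ hts.le
    have n5 : δ * ((‖r₁‖ + ‖r₂‖) ^ 2 + 1) = ε / 3 := by rw [hδ]; field_simp
    have n6 : 0 < δ := by positivity
    refine (norm_add_le_of_le (norm_add_le_of_le (norm_add_le_of_le n1 n2) n3) n4).trans ?_
    nlinarith
  rw [add_add_add_comm]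
  refine (add_le_add h3 le_rfl).trans (le_of_eq ?_)
  rw [add_assoc, ← add_smul, ← add_smul]
  congr 2
  ring

lemma half {α β W a k : G} (ha : IsSelfAdjoint a) (hk : IsSelfAdjoint k) (hW : IsSelfAdjoint W)
    {η : ℝ} (hη1 : η ≤ 1) (hη : η * (2 * ‖W‖ + 2) ≤ 1 / 8) (h1 : ‖star α * α - W‖ ≤ η)
    (h2 : ‖star α * β‖ ≤ η) (hh : α * star α - β * star β ≤ k * k)
    (haW : (1 / 4 : ℝ) • (a * a) ≤ a * (W * W) * a) :
    ∃ t : G, star t * t = a * a ∧ Sub (k * α * a) t := by
  have hη0 : 0 ≤ η := (norm_nonneg _).trans h1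
  have h3 : W * W ≤ star α * (α * star α - β * star β) * α + (1 / 8 : ℝ) • (1 : G) := by
    refine le_add_of_norm hW.mul_self_nonneg.isSelfAdjoint
      (sa_conj ((IsSelfAdjoint.mul_star_self α).sub (IsSelfAdjoint.mul_star_self β)) α) ?_
    have e : W * W - star α * (α * star α - β * star β) * α =
        (star α * β) * star (star α * β) - ((star α * α - W) * (star α * α - W) +
          W * (star α * α - W) + (star α * α - W) * W) := by
      simp only [star_mul, star_star]
      noncomm_ring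
    rw [e]
    have n1 : ‖(star α * β) * star (star α * β)‖ ≤ η * η := by
      rw [CStarRing.norm_self_mul_star]; gcongr
    have n2 : ‖(star α * α - W) * (star α * α - W)‖ ≤ η * η :=
      (norm_mul_le _ _).trans (by gcongr)
    have n3 : ‖W * (star α * α - W)‖ ≤ ‖W‖ * η := (norm_mul_le _ _).trans (by gcongr)
    have n4 : ‖(star α * α - W) * W‖ ≤ η * ‖W‖ := (norm_mul_le _ _).trans (by gcongr)
    refine (norm_sub_le_of_le n1 (norm_add_le_of_le (norm_add_le_of_le n2 n3) n4)).trans ?_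
    nlinarith
  have h4 : W * W ≤ star α * (k * k) * α + (1 / 8 : ℝ) • (1 : G) :=
    h3.trans (add_le_add (star_left_conjugate_le_conjugate hh α) le_rfl)
  have h5 := haW.trans (IsSelfAdjoint.conjugate_le_conjugate h4 ha)
  have h6 : 0 ≤ (8 : ℝ) • (star (k * α * a) * (k * α * a)) - a * a := by
    have h7 := smul_nonneg (show (0 : ℝ) ≤ 8 by norm_num) (sub_nonneg.2 h5)
    refine h7.trans (le_of_eq ?_)
    simp only [star_mul, ha.star_eq, hk.star_eq, mul_add, add_mul, mul_smul_comm, smul_mul_assoc,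
      mul_one, mul_assoc]
    module
  obtain ⟨t, ht, ht'⟩ := exists_douglas ha (by norm_num) (pos_iff.2 h6)
  refine ⟨t, ht, fun e he => ?_⟩
  have := ht' (1 - e) (by rw [sub_mul, one_mul, he, sub_zero])
  rwa [sub_mul, one_mul, sub_eq_self] at this

end PIx

open PIx

/-- Elements of the ideal of `y` are almost dominated by a single `r* y² r`. -/
theorem PI.dom {y m : G} (h : PI y) (hy : IsSelfAdjoint y) (hm : In y m) {ε : ℝ} (hε : 0 < ε) :
    ∃ r : G, star m * m ≤ star r * (y * y) * r + ε • (1 : G) := by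
  have hY : 0 ≤ y * y := hy.mul_self_nonneg
  let D : Ideal G := mkIdeal {m | Dm (y * y) (star m * m)}
    (fun ε hε => ⟨0, by
      simp only [star_zero, mul_zero, zero_add]
      exact smul_nonneg hε.le zero_le_one⟩)
    (fun a ha b hb => by
      refine (Dm.add h hy (Dm.smul ha zero_le_two) (Dm.smul hb zero_le_two)).mono ?_
      rw [← sub_nonneg]
      refine (star_mul_self_nonneg (a - b)).trans (le_of_eq ?_)
      simp only [star_add, star_sub, two_smul]
      noncomm_ring)
    (fun c a ha => by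
      refine (Dm.smul ha (norm_nonneg (star c * c))).mono ?_
      have := CStarAlgebra.star_left_conjugate_le_norm_smul (a := a) (b := star c * c)
        (IsSelfAdjoint.star_mul_self c)
      simpa only [star_mul, mul_assoc] using this)
  have hD : D.IsTwoSided := ⟨fun {a} b ha => by
    have := Dm.conj (show Dm (y * y) (star a * a) from ha) b
    change Dm (y * y) (star (a * b) * (a * b))
    simpa only [star_mul, mul_assoc] using this⟩
  have hc : IsClosed (D : Set G) := by
    refine isClosed_of_closure_subset fun m hm ε hε => ?_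
    have hcont : Continuous fun z : G => star z * z := by fun_prop
    obtain ⟨δ, hδ, hδ'⟩ := Metric.continuous_iff.1 hcont m (ε / 2) (by positivity)
    obtain ⟨n, hn, hmn⟩ := Metric.mem_closure_iff.1 hm δ hδ
    obtain ⟨r, hr⟩ := (show Dm (y * y) (star n * n) from hn) (ε / 2) (by positivity)
    have h1 := hδ' n (by rwa [dist_comm])
    rw [dist_comm, dist_eq_norm] at h1
    refine ⟨r, (le_add_of_norm (.star_mul_self m) (.star_mul_self n) h1.le).trans
      ((add_le_add hr le_rfl).trans (le_of_eq ?_))⟩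
    rw [add_assoc, ← add_smul, add_halves]
  have hyD : y ∈ D := fun ε hε => ⟨1, by
    rw [hy.star_eq, star_one, one_mul, mul_one]
    exact le_add_of_nonneg_right (smul_nonneg hε.le zero_le_one)⟩
  exact (show Dm (y * y) (star m * m) from hm.mem D hc hyD) ε hε

/-- Two exactly orthogonal copies. -/
theorem PI.two {y u a : G} (h : PI y) (hy : IsSelfAdjoint y) (hu : In y u)
    (ha : IsSelfAdjoint a) (hua : u * a = a) :
    ∃ t₁ t₂ : G, star t₁ * t₁ = a * a ∧ star t₂ * t₂ = a * a ∧ star t₁ * t₂ = 0 ∧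
      Sub y t₁ ∧ Sub y t₂ := by
  obtain ⟨r, hr⟩ := h.dom hy hu (ε := 1 / 2) (by norm_num)
  have hY : IsSelfAdjoint (y * y) := hy.mul_self_nonneg.isSelfAdjoint
  set W := star r * (y * y) * r with hWdef
  have hW : IsSelfAdjoint W := sa_conj hY r
  have hau : a * star u = a := by simpa only [star_mul, ha.star_eq] using congrArg star hua
  have haW : (1 / 4 : ℝ) • (a * a) ≤ a * (W * W) * a := by
    have h1 := IsSelfAdjoint.conjugate_le_conjugate hr ha
    rw [← mul_assoc, hau, mul_assoc, hua] at h1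
    have h2 : 0 ≤ (W - (1 / 2 : ℝ) • (1 : G)) * (W - (1 / 2 : ℝ) • (1 : G)) :=
      (hW.sub (IsSelfAdjoint.smul (.all _) (.one _))).mul_self_nonneg
    have h3 := IsSelfAdjoint.conjugate_le_conjugate h2 ha
    rw [mul_zero, zero_mul] at h3
    rw [← sub_nonneg]
    refine (add_nonneg h3 (sub_nonneg.2 h1)).trans (le_of_eq ?_)
    simp only [mul_add, add_mul, mul_sub, sub_mul, mul_smul_comm, smul_mul_assoc, mul_one, one_mul,
      mul_assoc]
    module
  set η : ℝ := 1 / (8 * (2 * ‖W‖ + 2)) with hη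
  have hη0 : 0 < η := by positivity
  have hη2 : η * (2 * ‖W‖ + 2) ≤ 1 / 8 := le_of_eq (by rw [hη]; field_simp)
  have hη1 : η ≤ 1 := by nlinarith [norm_nonneg W]
  set δ := η / (‖r‖ ^ 2 + 1) with hδ
  have hδ0 : 0 < δ := by positivity
  have hδη : ‖r‖ * δ * ‖r‖ ≤ η := by
    have : δ * (‖r‖ ^ 2 + 1) = η := by rw [hδ]; field_simp
    nlinarith
  obtain ⟨s, t, hs, ht, hst⟩ := h δ hδ0
  have e1 : ∀ s t : G, star (y * (s * r)) * (y * (t * r)) = star r * (star s * (y * y) * t) * r :=
    fun s t => by simp only [star_mul, hy.star_eq, mul_assoc]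
  have e2 : ∀ s : G, ‖star s * (y * y) * s - y * y‖ < δ →
      ‖star (y * (s * r)) * (y * (s * r)) - W‖ ≤ η := fun s hs => by
    rw [e1, hWdef, ← sub_mul, ← mul_sub]
    exact (norm_conj_le r _ r hs.le).trans hδη
  have e3 : ‖star (y * (s * r)) * (y * (t * r))‖ ≤ η := by
    rw [e1]
    exact (norm_conj_le r _ r hst.le).trans hδη
  have e4 : ‖star (y * (t * r)) * (y * (s * r))‖ ≤ η := by
    rwa [← norm_star, star_mul, star_star]
  set α := y * (s * r) with hα
  set β := y * (t * r) with hβ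
  obtain ⟨k, k', hk, hk', hkk, h1, h2, s1, s2⟩ := exists_pm
    ((IsSelfAdjoint.mul_star_self α).sub (IsSelfAdjoint.mul_star_self β))
  have hsub : Sub y (α * star α - β * star β) := fun e he => by
    have h3 : e * α = 0 := by rw [hα, ← mul_assoc, he, zero_mul]
    have h4 : e * β = 0 := by rw [hβ, ← mul_assoc, he, zero_mul]
    rw [mul_sub, ← mul_assoc e α, ← mul_assoc e β, h3, h4]
    simp
  obtain ⟨t₁, ht₁, u₁⟩ := half ha hk hW hη1 hη2 (e2 s hs) e3 h1 haW
  obtain ⟨t₂, ht₂, u₂⟩ := half ha hk' hW hη1 hη2 (e2 t ht) e4 (by rwa [neg_sub] at h2) haW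
  refine ⟨t₁, t₂, ht₁, ht₂, ?_, (((hsub.trans s1).mul_right _).mul_right _).trans u₁,
    (((hsub.trans s2).mul_right _).mul_right _).trans u₂⟩
  have h3 : k' * k = 0 := by
    simpa only [star_mul, hk.star_eq, hk'.star_eq, star_zero] using congrArg star hkk
  have h4 : k' * t₁ = 0 := u₁ k' (by rw [← mul_assoc, ← mul_assoc, h3, zero_mul, zero_mul])
  have h5 : star t₁ * k' = 0 := by
    simpa only [star_mul, hk'.star_eq, star_zero] using congrArg star h4
  exact u₂ _ (by rw [← mul_assoc, ← mul_assoc, h5, zero_mul, zero_mul])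

/-- A full projection. -/
theorem PI.proj {y u a : G} (h : PI y) (hy : IsSelfAdjoint y) (hu : In y u)
    (ha : IsSelfAdjoint a) (ha1 : ‖a‖ ≤ 1) (hua : u * a = a) (hay : a * y = y) :
    ∃ q : G, IsStarProjection q ∧ u * q = q ∧ In q y := by
  obtain ⟨t₁, t₂, h₁, h₂, h₁₂, s₁, s₂⟩ := h.two hy hu ha hua
  have a₁ : a * t₁ = t₁ := s₁.unit hay
  have a₂ : a * t₂ = t₂ := s₂.unit hay
  have hf : Continuous fun t : ℝ => √(1 - t * t) := by fun_prop
  set r := cfc (fun t : ℝ => √(1 - t * t)) a with hr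
  have hrs : IsSelfAdjoint r := cfc_predicate _ a
  have hrr : r * r = 1 - a * a := by
    rw [hr, ← cfc_mul _ _ a hf.continuousOn hf.continuousOn]
    have e : cfc (fun t : ℝ => 1 - t * t) a = 1 - a * a := by
      rw [cfc_sub _ _ a, cfc_mul _ _ a, cfc_id' ℝ a, cfc_const_one ℝ a]
    rw [← e]
    refine cfc_congr fun t ht => Real.mul_self_sqrt ?_
    have h3 : |t| ≤ 1 := by
      rcases subsingleton_or_nontrivial G with hG | hG
      · simp [spectrum.of_subsingleton] at ht
      · exact (spectrum.norm_le_norm_of_mem ht).trans ha1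
    have := abs_le.1 h3
    nlinarith
  have hrt : ∀ t : G, a * t = t → r * t = 0 := fun t ht => by
    rw [hr, cfc_mul_of_eigen ha (t := 1) (by rw [ht, one_smul]) hf]
    simp
  have hra : r * a = a * r := cfc_intertwine ha ha rfl hf
  have r₁ := hrt t₁ a₁
  have r₂ := hrt t₂ a₂
  have r₁' : star t₁ * r = 0 := by
    simpa only [star_mul, hrs.star_eq, star_zero] using congrArg star r₁
  have hv : star (t₁ + r) * (t₁ + r) = 1 := by
    rw [star_add, hrs.star_eq, add_mul, mul_add, mul_add, h₁, r₁, r₁', hrr]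
    abel
  have hv₂ : star (t₁ + r) * t₂ = 0 := by
    rw [star_add, hrs.star_eq, add_mul, h₁₂, r₂, add_zero]
  refine ⟨1 - (t₁ + r) * star (t₁ + r), ⟨?_, ?_⟩, ?_, fun R h0 => ?_⟩
  · refine IsIdempotentElem.one_sub ?_
    unfold IsIdempotentElem
    rw [mul_assoc, ← mul_assoc (star _), hv, one_mul]
  · exact (IsSelfAdjoint.one G).sub (.mul_star_self _)
  · have ut : u * t₁ = t₁ := by rw [← a₁, ← mul_assoc, hua]
    have h3 : (1 - u) * a = 0 := by rw [sub_mul, one_mul, hua, sub_self]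
    have h4 : (1 - u) * r * star t₁ = 0 := by
      rw [← CStarRing.mul_star_self_eq_zero_iff, star_mul, star_star, mul_assoc, ← mul_assoc _ t₁,
        h₁, mul_assoc, ← mul_assoc r, ← mul_assoc r, hra, ← mul_assoc, ← mul_assoc, ← mul_assoc, h3]
      simp
    have h5 : (1 - u) * t₁ = 0 := by rw [sub_mul, one_mul, ut, sub_self]
    have h6 : (1 - u) * (1 - (t₁ + r) * star (t₁ + r)) = 0 := by
      have e : 1 - (t₁ + r) * star (t₁ + r) = a * a - t₁ * star (t₁ + r) - r * star t₁ := by
        rw [add_mul, star_add, hrs.star_eq, mul_add r, hrr]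
        abel
      rw [e, mul_sub, mul_sub, ← mul_assoc, ← mul_assoc, ← mul_assoc, h3, h4, h5]
      simp
    rw [sub_mul, one_mul, sub_eq_zero] at h6
    exact h6.symm
  · have h3 : (1 - (t₁ + r) * star (t₁ + r)) * t₂ = t₂ := by
      rw [sub_mul, one_mul, mul_assoc, hv₂, mul_zero, sub_zero]
    have h4 : R.π t₂ = 0 := by rw [← h3, map_mul, h0, zero_mul]
    have h5 : R.π a = 0 := by
      rw [← CStarRing.star_mul_self_eq_zero_iff, ← map_star, ← map_mul, ha.star_eq, ← h₂, map_mul,
        h4, mul_zero]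
    rw [← hay, map_mul, h5, zero_mul]

end Vale.Agent.P133
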