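import Vale.Agent.P133.LemP
import Vale.Agent.P133.PInf

/-! The case where the `x` side lies in the ideal of the `y` side. -/

namespace Vale.Agent.P133
open Vale.Agent.P101
open scoped CStarAlgebra
universe u
variable {G : Type u} [CStarAlgebra G] [PartialOrder G] [StarOrderedRing G]

lemma star_mul_le_sq {d a : G} {δ : ℝ} (h : ‖d‖ ≤ δ) :
    star (d * a) * (d * a) ≤ (δ ^ 2) • (star a * a) := by
  calc star (d * a) * (d * a) = star a * (star d * d) * a := by simp only [star_mul, mul_assoc]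
    _ ≤ ‖star d * d‖ • (star a * a) :=
        CStarAlgebra.star_left_conjugate_le_norm_smul (.star_mul_self d)
    _ ≤ _ := by
        refine smul_le_smul_of_nonneg_right ?_ (star_mul_self_nonneg a)
        rw [CStarRing.norm_star_mul_self, sq]
        exact mul_self_le_mul_self (norm_nonneg _) h

omit [PartialOrder G] [StarOrderedRing G] in
lemma norm_le_one_of_star_mul {s a : G} (ha : IsSelfAdjoint a) (h : star s * s = a * a)
    (h1 : ‖a‖ ≤ 1) : ‖s‖ ≤ 1 := by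
  have := congrArg norm h
  nth_rw 1 [← ha.star_eq] at this
  rw [CStarRing.norm_star_mul_self, CStarRing.norm_star_mul_self] at this
  nlinarith [norm_nonneg s, norm_nonneg a]

omit [PartialOrder G] [StarOrderedRing G] in
lemma Rep.norm_star_mul (R : Rep G) (a : G) : ‖R.π (star a * a)‖ = ‖R.π a‖ ^ 2 := by
  rw [map_mul, map_star, CStarRing.norm_star_mul_self, sq]

lemma Rep.norm_mono (R : Rep G) {a b : G} (h0 : 0 ≤ a) (h : a ≤ b) : ‖R.π a‖ ≤ ‖R.π b‖ :=
  CStarAlgebra.norm_le_norm_of_nonneg_of_le (R.nonneg h0) (R.mono h)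

theorem lemS {M : Ideal G} [M.IsTwoSided] (hM : ∀ z ∈ M, 0 ≤ z → PI z) {c x₀ y : G} {ε : ℝ}
    {l : ℕ → G} (hl : Chain y ε l) (hy : y ∈ M) (hc : ‖c‖ ≤ 1) (h0 : 0 ≤ x₀) (hx₀ : x₀ ∈ M)
    (hin : In (l 4) x₀) :
    ∃ β : G, 0 ≤ β ∧ Sub (l 1) β ∧ (∀ R : Rep G, R.π (l 4) ≠ 0 → 1 ≤ ‖R.π β‖) ∧
      ∀ x, IsSelfAdjoint x → x * x₀ = x₀ → ∀ R : Rep G,
        Bad R x (star c * β * c) (5 / 8) → ‖R.π x₀‖ < 1 / 2 := by
  obtain ⟨m, hm⟩ := exists_chain h0 (ε := 1 / 2) (by norm_num)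
  obtain ⟨s₁, s₂, e₁, e₂, e₁₂, u₁, u₂⟩ := (hM _ (hm.mem 2 hx₀) (hm.nonneg 2)).two (hm.sa 2)
    (u := m 3) (a := m 4) (hm.mul 2 ▸ (In.refl _).mul_right _) (hm.sa 4) (hm.mul 3)
  have hin0 : In (l 4) (l 1 * c * m 0) := (hin.trans (hm.isIn 0)).mul_left _
  obtain ⟨e, he, hes, he1, he2⟩ := hin0.exists_unit (δ := 1 / 8) (by norm_num)
  obtain ⟨n₀, hn₀⟩ : ∃ n₀, n₀ = (1 - e) * l 1 := ⟨_, rfl⟩
  have hn₀c : ‖n₀ * c * m 0‖ ≤ 1 / 8 := by rw [hn₀]; simpa only [mul_assoc] using he2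
  obtain ⟨X, k, -, hX0, -, -, -, -, -, hXz, hXk, hkz⟩ :=
    exists_cut (star_mul_self_nonneg n₀) (lam := 1 / 2) (mu := 3 / 4) (by norm_num) (by norm_num)
  let R₀ : Rep G := Rep.quo (cid k)
  have hR₀k : R₀.π k = 0 := (Rep.quo_eq_zero _).2 (In.refl k)
  have hI : In (R₀.π (l 4)) (R₀.π (l 2)) := fun S hS => by
    have h1 : (R₀.comp S).π k = 0 := by rw [Rep.comp_apply, hR₀k, map_zero]; rfl
    have h2 : (R₀.comp S).π e = 0 := he _ hS
    have h3 := hkz (R₀.comp S) (by rw [h1, norm_zero]; exact one_pos)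
    rw [Rep.norm_star_mul, hn₀, map_mul, map_sub, h2, map_one, sub_zero, one_mul] at h3
    exact (R₀.comp S).eq_zero_of_unit (hl.mul 1)
      (by nlinarith [norm_nonneg ((R₀.comp S).π (l 1))])
  obtain ⟨q, hq, hq2, hq4⟩ := ((hM _ (hl.mem 4 hy) (hl.nonneg 4)).map R₀).proj
    ((hl.sa 4).map R₀.π) hI ((hl.sa 3).map R₀.π) ((R₀.norm_le _).trans (hl.norm_le 3))
    (by rw [← map_mul, hl.mul 2]) (by rw [← map_mul, hl.mul 3])
  have hv : m 4 * m 4 * m 5 = m 5 := by rw [mul_assoc, hm.mul 4, hm.mul 4]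
  obtain ⟨βq, hβ0, hβq, hβF, hβG⟩ := lemP (c := R₀.π c) (x := R₀.π (m 1)) (s₁ := R₀.π s₁)
    (s₂ := R₀.π s₂) (v := R₀.π (m 5)) hq ((R₀.norm_le _).trans hc) ((hm.sa 1).map R₀.π)
    (by rw [← map_mul, u₁.unit (hm.mul 1)]) (by rw [← map_mul, u₂.unit (hm.mul 1)])
    ((R₀.norm_le _).trans (norm_le_one_of_star_mul (hm.sa 4) e₁ (hm.norm_le 4)))
    ((R₀.norm_le _).trans (norm_le_one_of_star_mul (hm.sa 4) e₂ (hm.norm_le 4)))
    (by rw [← map_star, ← map_mul, e₁₂, map_zero])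
    (by rw [← map_star, ← map_mul, ← map_mul, e₁, hv])
    (by rw [← map_star, ← map_mul, ← map_mul, e₂, hv])
  obtain ⟨b, hb⟩ := pos_iff.2 hβ0
  obtain ⟨b₀, rfl⟩ := Rep.quo_surj (cid k) b
  obtain ⟨n, hn⟩ : ∃ n, n = b₀ * l 2 := ⟨_, rfl⟩
  have hnn : R₀.π (star n * n) = βq := by
    have h1 : R₀.π (l 2) * βq = βq := by rw [← hβq, ← mul_assoc, hq2]
    have h2 : βq * R₀.π (l 2) = βq := by
      simpa only [star_mul, ((hl.sa 2).map R₀.π).star_eq, hβ0.isSelfAdjoint.star_eq]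
        using congrArg star h1
    calc R₀.π (star n * n) = R₀.π (l 2) * βq * R₀.π (l 2) := by
          rw [hb, hn, star_mul, (hl.sa 2).star_eq]
          simp only [map_mul, map_star, mul_assoc]
          rfl
      _ = βq := by rw [h1, h2]
  have hsaT : ∀ w : G, IsSelfAdjoint (star c * (star w * w) * c) := fun w =>
    (star_left_conjugate_nonneg (star_mul_self_nonneg w) c).isSelfAdjoint
  obtain ⟨k', hk'⟩ := exists_bad_gen (hm.sa 1) (hsaT n) (9 / 16)
  have hfac : ∀ R : Rep G, R.π k = 0 → ∃ S : Rep R₀.Q, R₀.comp S = R := fun R hR =>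
    R.exists_factor (cid k) fun j hj => hj R hR
  obtain ⟨ρ, hρ, hρ'⟩ := cpt (k := k') (y := k) (x := m 6) (fun R h1 h2 => by
    obtain ⟨S, rfl⟩ := hfac R h2
    have h3 := Bad.comp.1 ((hk' _).1 h1)
    rw [map_mul, map_mul, hnn, map_star] at h3
    exact (R₀.comp S).eq_zero_of_unit (hm.mul 5) (hβG S h3)) (δ := 1 / 8) (by norm_num)
  have hin1 : In k (n * c * (m 6 * ρ)) := (hρ.mul_left _).mul_left _
  obtain ⟨e', he', -, he1', he2'⟩ := hin1.exists_unit (δ := 1 / 8) (by norm_num)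
  obtain ⟨n', hn'⟩ : ∃ n', n' = (1 - e') * n := ⟨_, rfl⟩
  have hz0 : 0 ≤ (2 : ℝ) • (star n₀ * n₀) := smul_nonneg zero_le_two (star_mul_self_nonneg _)
  refine ⟨star n' * n' + (2 : ℝ) • (star n₀ * n₀), add_nonneg (star_mul_self_nonneg _) hz0,
    Sub.add ?_ (Sub.smul ?_ _), fun R hR => ?_, fun x hx hxx R hB => ?_⟩
  · rw [hn', hn, star_mul, star_mul, (hl.sa 2).star_eq, mul_assoc, mul_assoc]
    exact (Sub.of_unit (hl.mul 1)).mul_right _
  · rw [hn₀, star_mul, (hl.sa 1).star_eq, mul_assoc]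
    exact (Sub.refl _).mul_right _
  · by_cases hk : R.π k = 0
    · have h1 : R.π n' = R.π n := by
        rw [hn', map_mul, map_sub, he' R hk, map_one, sub_zero, one_mul]
      refine le_trans ?_ (R.norm_mono (star_mul_self_nonneg n') (le_add_of_nonneg_right hz0))
      rw [R.norm_star_mul, h1, ← R.norm_star_mul]
      obtain ⟨S, rfl⟩ := hfac R hk
      rw [Rep.comp_apply, hnn]
      exact hβF S fun h2 => hR (hq4 S h2)
    · have h1 : 1 ≤ ‖R.π X‖ := one_le_norm_of_unit (by rw [← map_mul, hXk]) hk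
      refine le_trans ?_ (R.norm_mono hz0 (le_add_of_nonneg_left (star_mul_self_nonneg n')))
      have h2 := R.norm_mono (smul_nonneg (by norm_num)
        (by simpa only [hX0.isSelfAdjoint.star_eq] using star_mul_self_nonneg X)) hXz
      nth_rw 1 [← hX0.isSelfAdjoint.star_eq] at h2
      rw [map_smul_real, norm_smul, R.norm_star_mul] at h2
      rw [map_smul_real, norm_smul]
      norm_num at h2 ⊢
      nlinarith
  · obtain ⟨g, hg⟩ := hm.fac 1
    have hB1 := hB.sub hx (hm.sa 1) (by rw [hg, ← mul_assoc, hxx])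
    have hexp : ∀ a : G, star a * (star c * (star n' * n' + (2 : ℝ) • (star n₀ * n₀)) * c) * a =
        star (n' * c * a) * (n' * c * a) + (2 : ℝ) • (star (n₀ * c * a) * (n₀ * c * a)) := by
      intro a
      simp only [star_mul, mul_add, add_mul, mul_smul_comm, smul_mul_assoc, mul_assoc]
    have hsm : ∀ a : G, m 0 * a = a →
        star (n₀ * c * a) * (n₀ * c * a) ≤ ((1 / 8 : ℝ) ^ 2) • (star a * a) := fun a ha => by
      have := star_mul_le_sq (a := a) hn₀c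
      rwa [mul_assoc _ (m 0), ha] at this
    have hB2 : Bad R (m 1) (star c * (star n * n) * c) (9 / 16) := by
      refine hB1.mono (hm.sa 1) (A := 1 / 32) one_pos (by norm_num) ?_
      have h1 := hexp (m 1)
      have h2 := hsm _ (hm.mul 0)
      have h3 := star_mul_le_sq (a := n * c * m 1) he1'
      rw [(hm.sa 1).star_eq] at h1 h2
      rw [h1, add_comm]
      refine add_le_add ((smul_le_smul_of_nonneg_left h2 zero_le_two).trans_eq ?_) ?_
      · rw [smul_smul]; norm_num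
      · rw [hn']
        simpa only [one_pow, star_mul, (hm.sa 1).star_eq, mul_assoc] using h3
    have h4 := hρ' R ((hk' R).2 hB2)
    have ha : ∀ j, j < 6 → m j * (m 6 * ρ) = m 6 * ρ := fun j hj => by
      rw [← mul_assoc, hm.mul_of_lt hj]
    have h5 := hB1.test (hm.sa 1) (ha 1 (by norm_num)) (by norm_num)
    rw [hexp, map_add, map_smul_real] at h5
    have h6 := h5.trans (norm_add_le _ _)
    have h7 := R.norm_mono (star_mul_self_nonneg _) (hsm _ (ha 0 (by norm_num)))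
    have h8 : ‖R.π (n' * c * (m 6 * ρ))‖ ≤ 1 / 8 :=
      (R.norm_le _).trans (by rw [hn']; simpa only [mul_assoc] using he2')
    rw [map_smul_real, norm_smul, R.norm_star_mul (m 6 * ρ),
      Real.norm_of_nonneg (by positivity)] at h7
    rw [norm_smul, R.norm_star_mul, Real.norm_of_nonneg zero_le_two] at h6
    refine hm.lt_of_lt_one R (n := 6) ?_
    have h9 := norm_nonneg (R.π (n' * c * (m 6 * ρ)))
    have h10 := norm_nonneg (R.π (m 6 * ρ))
    have h11 : ‖R.π (m 6 * ρ)‖ ^ 2 ≤ (1 / 2) ^ 2 := by nlinarith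
    have h12 := abs_le_of_sq_le_sq' h11 (by norm_num)
    linarith [h12.2]

end Vale.Agent.P133
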