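import Vale.Agent.P133.Ideal
import Vale.Agent.P133.Fun

/-! The selection lemma. -/

namespace Vale.Agent.P133
open Vale.Agent.P101
open scoped CStarAlgebra
universe u
variable {G : Type u} [CStarAlgebra G] [PartialOrder G] [StarOrderedRing G]

theorem select {M : Ideal G} [M.IsTwoSided] {x₀ x T : G} {θ : ℝ} (hθ : 0 ≤ θ) (hxM : x ∈ M)
    (hx : IsSelfAdjoint x) (hT : 0 ≤ T) (hs : Sub x₀ x)
    (h : ∀ R : Rep G, Bad R x T θ → ‖R.π x₀‖ < 1) :
    ∃ X X', Lev M x₀ X X' ∧ ‖X * T * X‖ ≤ θ := by
  obtain ⟨H, hH⟩ : ∃ H, H = θ • (x * x) - x * T * x := ⟨_, rfl⟩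
  have hh : IsSelfAdjoint H := by
    rw [hH]
    refine ((IsSelfAdjoint.all θ).smul ?_).sub ?_
    · simpa only [hx.star_eq] using IsSelfAdjoint.star_mul_self x
    · simpa only [hx.star_eq] using hT.isSelfAdjoint.conjugate x
  obtain ⟨p, hp⟩ : ∃ p, p = cfc (fun t : ℝ => max t 0) H := ⟨_, rfl⟩
  have hps : IsSelfAdjoint p := hp ▸ cfc_predicate _ _
  have hpH : p * H * p = cfc (fun t : ℝ => max t 0 * t * max t 0) H := by
    rw [cfc_mul .., cfc_mul .., cfc_id' ℝ H, hp]
  have hp0 : 0 ≤ p * H * p := by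
    rw [hpH]
    refine cfc_nonneg fun t _ => ?_
    rcases le_total t 0 with h | h
    · simp [max_eq_right h]
    · rw [max_eq_left h]; positivity
  have e1 : star (x * p) * T * (x * p) = θ • (star (x * p) * (x * p)) - p * H * p := by
    rw [hH]
    simp only [star_mul, hx.star_eq, hps.star_eq, mul_sub, sub_mul, mul_smul_comm,
      smul_mul_assoc, mul_assoc]
    abel
  obtain ⟨η, hη, hu⟩ := exists_unif (k := x * p * star (x * p)) (x := x₀) fun R hR => h R (by
    have h1 : R.π (x * p) = 0 := by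
      rw [map_mul, map_star] at hR
      exact (CStarRing.mul_star_self_eq_zero_iff _).1 hR
    have h2 := congrArg R.π e1
    rw [map_mul, h1, mul_zero, map_sub, map_smul_real, map_mul, h1, mul_zero, smul_zero, zero_sub,
      eq_comm, neg_eq_zero, hpH, map_cfc_real R.π (by fun_prop) hh,
      ← cfc_const_zero ℝ (R.π H), cfc_eq_cfc_iff_eqOn (ha := hh.map R.π)] at h2
    have h3 : R.π H ≤ 0 := by
      rw [← cfc_max_eq_zero_iff (hh.map R.π), ← cfc_const_zero ℝ (R.π H)]
      refine cfc_congr fun t ht => ?_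
      have := h2 ht
      rcases le_total t 0 with h | h
      · exact max_eq_right h
      · simp only [max_eq_left h] at this ⊢
        simpa using this
    rwa [hH, map_sub, sub_nonpos, map_smul_real] at h3)
  obtain ⟨X, X', g, hX0, hX'0, hg, hX, hX', hX1, -, hXX, hfull⟩ :=
    exists_cut (mul_star_self_nonneg (x * p)) (half_pos hη) (half_lt_self hη)
  have hXM : X ∈ M := by
    rw [hX', mul_assoc, mul_assoc]
    exact M.mul_mem_right _ hxM
  refine ⟨X, X', ⟨hXX ▸ M.mul_mem_right _ hXM, hX'0, hX0.isSelfAdjoint, hXX, ?_,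
    fun R hR => hu R (hfull R hR)⟩, ?_⟩
  · rw [hX', mul_assoc, mul_assoc]
    exact hs.mul_right _
  · have h1 := star_right_conjugate_le_conjugate (e1.trans_le (sub_le_self _ hp0)) (g * (x * p))
    have e2 : g * (x * p) * (star (x * p) * T * (x * p)) * star (g * (x * p)) = X * T * X := by
      nth_rw 2 [hX']
      rw [hX, star_mul g, hg.star_eq]
      simp only [mul_assoc]
    have e3 : g * (x * p) * (θ • (star (x * p) * (x * p))) * star (g * (x * p)) =
        θ • (X * X) := by
      nth_rw 2 [hX']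
      rw [hX, star_mul g, hg.star_eq]
      simp only [mul_assoc, mul_smul_comm, smul_mul_assoc]
    rw [e2, e3] at h1
    refine (CStarAlgebra.norm_le_norm_of_nonneg_of_le
      (hX0.isSelfAdjoint.conjugate_nonneg hT) h1).trans ?_
    rw [norm_smul, Real.norm_of_nonneg hθ]
    exact mul_le_of_le_one_right hθ
      ((norm_mul_le _ _).trans (mul_le_one₀ hX1 (norm_nonneg _) hX1))

end Vale.Agent.P133
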