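import Vale.Agent.P133.LemS
import Vale.Agent.P133.Select

/-! The contraction step. -/

namespace Vale.Agent.P133
open Vale.Agent.P101
open scoped CStarAlgebra
universe u
variable {G : Type u} [CStarAlgebra G] [PartialOrder G] [StarOrderedRing G]

namespace StepX

omit [PartialOrder G] [StarOrderedRing G] in
lemma right_unit {t a e : G} (h : star t * t = a * a) (hae : a * e = a) : t * e = t := by
  have h1 : t * (1 - e) = 0 := by
    rw [← CStarRing.star_mul_self_eq_zero_iff, star_mul, mul_assoc, ← mul_assoc (star t), h,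
      mul_assoc, mul_sub, mul_one, hae, sub_self, mul_zero, mul_zero]
  rw [mul_sub, mul_one, sub_eq_zero] at h1
  exact h1.symm

omit [PartialOrder G] [StarOrderedRing G] in
lemma norm_lt {t a : G} (h : star t * t = a * a) (ha : IsSelfAdjoint a) (R : Rep G)
    (h1 : ‖R.π (t * star t)‖ < 1) : ‖R.π a‖ < 1 := by
  rw [map_mul, map_star, CStarRing.norm_self_mul_star, ← CStarRing.norm_star_mul_self,
    ← map_star, ← map_mul, h] at h1
  nth_rewrite 1 [← ha.star_eq] at h1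
  rw [map_mul, map_star, CStarRing.norm_star_mul_self] at h1
  nlinarith [norm_nonneg (R.π a)]

lemma sq_le_one {a : G} (ha : IsSelfAdjoint a) (h : ‖a‖ ≤ 1) : a * a ≤ 1 := by
  rw [← CStarAlgebra.norm_le_one_iff_of_nonneg _ ha.mul_self_nonneg]
  exact (norm_mul_le _ _).trans (mul_le_one₀ h (norm_nonneg _) h)

lemma sum_le_one {b₁ b₂ : G} (h₁ : star b₁ * b₁ ≤ 1) (h₂ : star b₂ * b₂ ≤ 1)
    (h : star b₁ * b₂ = 0) : b₁ * star b₁ + b₂ * star b₂ ≤ 1 := by
  have h' : star b₂ * b₁ = 0 := by simpa only [star_mul, star_star, star_zero] using congrArg star h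
  set Q := b₁ * star b₁ + b₂ * star b₂ with hQ
  have hQ0 : 0 ≤ Q := add_nonneg (mul_star_self_nonneg _) (mul_star_self_nonneg _)
  have h3 : Q * Q ≤ Q := by
    have e : Q * Q = b₁ * (star b₁ * b₁) * star b₁ + b₂ * (star b₂ * b₂) * star b₂ +
        b₁ * (star b₁ * b₂) * star b₂ + b₂ * (star b₂ * b₁) * star b₁ := by
      rw [hQ]; noncomm_ring
    rw [e, h, h']
    simp only [mul_zero, zero_mul, add_zero]
    refine add_le_add ?_ ?_
    · simpa only [mul_one] using star_right_conjugate_le_conjugate h₁ b₁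
    · simpa only [mul_one] using star_right_conjugate_le_conjugate h₂ b₂
  have h4 := CStarAlgebra.norm_le_norm_of_nonneg_of_le hQ0.isSelfAdjoint.mul_self_nonneg h3
  nth_rewrite 1 [← hQ0.isSelfAdjoint.star_eq] at h4
  rw [CStarRing.norm_star_mul_self] at h4
  rw [← CStarAlgebra.norm_le_one_iff_of_nonneg _ hQ0]
  nlinarith [norm_nonneg Q]

lemma mix_le (b₁ b₂ : G) (s t u v : ℝ) (h : u * v = s * t) :
    (s • b₁ + t • b₂) * star (s • b₁ + t • b₂) ≤
      (s ^ 2 + u ^ 2) • (b₁ * star b₁) + (t ^ 2 + v ^ 2) • (b₂ * star b₂) := by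
  rw [← sub_nonneg]
  refine (mul_star_self_nonneg (u • b₁ - v • b₂)).trans (le_of_eq ?_)
  simp only [star_add, star_sub, star_smul, star_trivial s, star_trivial t, star_trivial u,
    star_trivial v, mul_add, add_mul, mul_sub, sub_mul, smul_mul_assoc, mul_smul_comm]
  match_scalars
  all_goals first | ring1 | linear_combination -h

lemma bad_mono {R : Rep G} {x c Z Z' : G} {θ θ' A Γ : ℝ} (h : Bad R x (star c * Z * c) θ)
    (hx : IsSelfAdjoint x) (hc : ‖c‖ ≤ 1) (hA : 0 ≤ A) (hΓ : 0 < Γ) (hθ : θ' * Γ ≤ θ - A)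
    (hZ : Z ≤ A • (1 : G) + Γ • Z') : Bad R x (star c * Z' * c) θ' := by
  refine h.mono hx hΓ hθ ?_
  have h1 : star c * c ≤ 1 := by
    rw [← CStarAlgebra.norm_le_one_iff_of_nonneg _ (star_mul_self_nonneg c),
      CStarRing.norm_star_mul_self]
    exact mul_le_one₀ hc (norm_nonneg _) hc
  have h2 : star c * Z * c ≤ A • (1 : G) + Γ • (star c * Z' * c) := by
    refine (star_left_conjugate_le_conjugate hZ c).trans ?_
    simp only [mul_add, add_mul, mul_smul_comm, smul_mul_assoc, mul_one]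
    exact add_le_add (smul_le_smul_of_nonneg_left h1 hA) le_rfl
  refine (IsSelfAdjoint.conjugate_le_conjugate h2 hx).trans (le_of_eq ?_)
  simp only [mul_add, add_mul, mul_smul_comm, smul_mul_assoc, mul_one]

end StepX

open StepX

theorem step {M : Ideal G} [M.IsTwoSided] (hM : ∀ z ∈ M, 0 ≤ z → PI z) {c x y : G}
    (hc : ‖c‖ ≤ 1) (hx0 : 0 ≤ x) (hx : x ∈ M) (hy0 : 0 ≤ y) (hy : y ∈ M) :
    ∃ X X' Y Y', Lev M x X X' ∧ Lev M y Y Y' ∧ ‖Y * c * X‖ ≤ 99 / 100 := by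
  obtain ⟨p, hp⟩ := exists_chain hx0 one_pos
  obtain ⟨l, hl⟩ := exists_chain hy0 one_pos
  obtain ⟨t₁, t₂, ht₁, ht₂, ht₁₂, st₁, st₂⟩ := (hM _ (hl.mem 0 hy) (hl.nonneg 0)).two (hl.sa 0)
    (u := l 1) (hl.mul 0 ▸ (In.refl _).mul_right _) (hl.sa 2) (hl.mul 1)
  have ht₂M : t₂ ∈ M :=
    right_unit ht₂ (hl.mul_of_gt (show 1 < 2 by norm_num)) ▸ M.mul_mem_left _ (hl.mem 1 hy)
  have hY2M : t₂ * star t₂ ∈ M := M.mul_mem_right _ ht₂M
  obtain ⟨m, hm⟩ := exists_chain (mul_star_self_nonneg t₂) one_pos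
  have fA : ∀ R : Rep G, R.π (m 4) = 0 → R.π (l 3) = 0 := fun R h0 =>
    R.eq_zero_of_unit (hl.mul 2) (norm_lt ht₂ (hl.sa 2) R (hm.lt_of_eq_zero R h0))
  set b₁ := t₁ * l 4 with hb₁
  have hb₁₁ : star b₁ * b₁ = l 4 * l 4 := by
    rw [hb₁, star_mul, (hl.sa 4).star_eq, mul_assoc, ← mul_assoc (star t₁), ht₁, mul_assoc,
      hl.mul_of_lt (show 2 < 4 by norm_num), hl.mul_of_lt (show 2 < 4 by norm_num)]
  obtain ⟨k₀, hk₀⟩ := exists_bad_gen (hp.sa 1) (T := star c * (b₁ * star b₁) * c)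
    (star_left_conjugate_nonneg (mul_star_self_nonneg b₁) c).isSelfAdjoint (1 / 500)
  have fB : ∀ R : Rep G, R.π k₀ = 0 → R.π (m 4) = 0 → R.π (p 2) = 0 := fun R h1 h2 => by
    have h3 : R.π b₁ = 0 := by rw [hb₁, ← hl.mul 3, map_mul, map_mul, fA R h2, zero_mul, mul_zero]
    have h4 := ((hk₀ R).1 h1).test (hp.sa 1) (hp.mul 1) (by norm_num)
    simp only [map_mul, h3, zero_mul, mul_zero, norm_zero] at h4
    have h5 : ‖R.π (p 2)‖ ^ 2 ≤ 0 := by linarith
    exact norm_eq_zero.1 (pow_eq_zero_iff two_ne_zero |>.1 (le_antisymm h5 (sq_nonneg _)))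
  obtain ⟨ρ, hρ, hρ'⟩ := cpt fB (δ := 1 / 4) (by norm_num)
  obtain ⟨β, hβ0, hβs, hβf, hβb⟩ := lemS hM hm hY2M hc (mul_star_self_nonneg (p 2 * ρ))
    (M.mul_mem_right _ (M.mul_mem_right _ (hp.mem 2 hx))) ((hρ.mul_left _).mul_right _)
  have hβM : β ∈ M := hβs.unit (hm.mul 0) ▸ M.mul_mem_right _ (hm.mem 0 hY2M)
  obtain ⟨B, B', g, hB0, hB'0, -, -, hBg, -, hBB, hBB', hBf⟩ :=
    exists_cut hβ0 (lam := 5 / 6) (mu := 1) (by norm_num) (by norm_num)
  have hB'M : B' ∈ M := hBB' ▸ M.mul_mem_right _ (hBg ▸ M.mul_mem_right _ hβM)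
  have hin : In B' (l 3) := fun R h0 => fA R (by
    by_contra h1
    exact absurd (hβf R h1) (not_le.2 (hBf R (by rw [h0, norm_zero]; norm_num))))
  obtain ⟨b₂, -, hb₂₂, -, -, sb₂, -⟩ :=
    (hM _ hB'M hB'0).two hB'0.isSelfAdjoint hin (hl.sa 4) (hl.mul 3)
  have hl4 : l 4 * l 4 ≤ 1 := sq_le_one (hl.sa 4) (hl.norm_le 4)
  have sub₂ : Sub t₂ b₂ :=
    (((((Sub.refl t₂).mul_right _).trans (hm.sub 1)).trans hβs).trans
      (hBg ▸ (Sub.refl β).mul_right g)).trans ((Sub.of_unit hBB').trans sb₂)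
  have hb₁₂ : star b₁ * b₂ = 0 := by
    rw [hb₁, star_mul, mul_assoc, sub₂ _ ht₁₂, mul_zero]
  have hb₂₁ : star b₂ * b₁ = 0 := by
    simpa only [star_mul, star_star, star_zero] using congrArg star hb₁₂
  have hsum := sum_le_one (hb₁₁ ▸ hl4) (hb₂₂ ▸ hl4) hb₁₂
  have hb₂1 : b₂ * star b₂ ≤ 1 := (le_add_of_nonneg_left (mul_star_self_nonneg b₁)).trans hsum
  have hb₂β : b₂ * star b₂ ≤ (6 / 5 : ℝ) • β := by
    have h1 : B * b₂ = b₂ := sb₂.unit hBB'
    have h2 : star b₂ * B = star b₂ := by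
      simpa only [star_mul, hB0.isSelfAdjoint.star_eq] using congrArg star h1
    have h3 := IsSelfAdjoint.conjugate_le_conjugate hb₂1 hB0.isSelfAdjoint
    rw [← mul_assoc, h1, mul_assoc, h2, mul_one] at h3
    refine h3.trans ?_
    have h4 := smul_le_smul_of_nonneg_left hBB (show (0 : ℝ) ≤ 6 / 5 by norm_num)
    rwa [smul_smul, show (6 / 5 * (5 / 6) : ℝ) = 1 by norm_num, one_smul] at h4
  set b := (7 / 25 : ℝ) • b₁ + (24 / 25 : ℝ) • b₂ with hb
  have hbb : star b * b = l 4 * l 4 := by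
    simp only [hb, star_add, star_smul, star_trivial (7 / 25 : ℝ), star_trivial (24 / 25 : ℝ),
      mul_add, add_mul, smul_mul_assoc, mul_smul_comm, hb₁₁, hb₂₂, hb₁₂, hb₂₁, smul_zero]
    module
  have hbM : b ∈ M :=
    right_unit hbb (hl.mul_of_gt (show 3 < 4 by norm_num)) ▸ M.mul_mem_left _ (hl.mem 3 hy)
  have sb : Sub y b :=
    ((((hl.sub 0).trans st₁).mul_right _).smul _).add ((((hl.sub 0).trans st₂).trans sub₂).smul _)
  have i1 : b * star b ≤ ((24 / 25) ^ 2 + (24 / 175) ^ 2 : ℝ) • (1 : G) +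
      ((7 / 25) ^ 2 + (49 / 25) ^ 2 : ℝ) • (b₁ * star b₁) := by
    refine (mix_le b₁ b₂ _ _ (49 / 25) (24 / 175) (by norm_num)).trans ?_
    rw [add_comm]
    exact add_le_add (smul_le_smul_of_nonneg_left hb₂1 (by norm_num)) le_rfl
  have i2 : b * star b ≤ (1421 / 2500 : ℝ) • (1 : G) + (31291 / 62500 * (6 / 5) : ℝ) • β := by
    refine (mix_le b₁ b₂ _ _ (7 / 10) (48 / 125) (by norm_num)).trans ?_
    have h1 := smul_le_smul_of_nonneg_left hsum (show (0 : ℝ) ≤ 1421 / 2500 by norm_num)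
    have h2 := smul_le_smul_of_nonneg_left hb₂β (show (0 : ℝ) ≤ 31291 / 62500 by norm_num)
    rw [smul_smul] at h2
    refine (le_of_eq ?_).trans (add_le_add h1 h2)
    module
  obtain ⟨Y, Y', g', hY0, hY'0, -, -, hYg, -, hYY, hYY', hYf⟩ :=
    exists_cut (mul_star_self_nonneg b) (lam := 39 / 40) (mu := 1) (by norm_num) (by norm_num)
  have i3 : Y * Y ≤ (0 : ℝ) • (1 : G) + (40 / 39 : ℝ) • (b * star b) := by
    have h4 := smul_le_smul_of_nonneg_left hYY (show (0 : ℝ) ≤ 40 / 39 by norm_num)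
    rwa [smul_smul, show (40 / 39 * (39 / 40) : ℝ) = 1 by norm_num, one_smul,
      ← zero_add ((40 / 39 : ℝ) • _), ← zero_smul ℝ (1 : G)] at h4
  obtain ⟨X, X', hX, hXn⟩ := select (M := M) (x₀ := x) (T := star c * (Y * Y) * c)
    (θ := 39 / 40) (by norm_num) (hp.mem 1 hx) (hp.sa 1)
    (star_left_conjugate_nonneg hY0.isSelfAdjoint.mul_self_nonneg c) (hp.sub 1) (fun R h => by
      have h1 := bad_mono h (hp.sa 1) hc (θ' := 19 / 20) le_rfl (by norm_num) (by norm_num) i3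
      have h2 := bad_mono h1 (hp.sa 1) hc (θ' := 1 / 500) (by norm_num) (by norm_num)
        (by norm_num) i1
      have h3 := bad_mono h1 (hp.sa 1) hc (θ' := 5 / 8) (by norm_num) (by norm_num)
        (by norm_num) i2
      have h4 := hβb (p 1) (hp.sa 1) (by rw [← mul_assoc, ← mul_assoc, hp.mul 1]) R h3
      rw [map_mul, map_star, CStarRing.norm_self_mul_star] at h4
      have h5 := hρ' R ((hk₀ R).2 h2)
      refine hp.lt_of_lt_one R (n := 2) ?_
      nlinarith [norm_nonneg (R.π (p 2 * ρ))])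
  refine ⟨X, X', Y, Y', hX, ⟨hYY' ▸ M.mul_mem_right _
    (hYg ▸ M.mul_mem_right _ (M.mul_mem_right _ hbM)), hY'0, hY0.isSelfAdjoint, hYY',
    hYg ▸ (sb.mul_right _).mul_right _,
    fun R h => hl.lt_of_lt_one R (norm_lt hbb (hl.sa 4) R (hYf R h))⟩, ?_⟩
  have h1 : star (Y * c * X) * (Y * c * X) = X * (star c * (Y * Y) * c) * X := by
    simp only [star_mul, hX.sa.star_eq, hY0.isSelfAdjoint.star_eq, mul_assoc]
  rw [← h1, CStarRing.norm_star_mul_self] at hXn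
  nlinarith [norm_nonneg (Y * c * X)]

end Vale.Agent.P133
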